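import Vale.Agent.P281.H64.TS.Spec
import Vale.Agent.P272.K.C2.Wirt

/-!
# P281, project T-S, block C7 (helper624): differential forms in sheets, basic facts
-/

open Set Filter Metric MeasureTheory Vale.Agent.P272.K
open scoped Topology ContDiff ComplexConjugate ComplexOrder

noncomputable section

namespace Vale.Agent.P281.H624.TS

open Vale.Agent.P281.H64.TK Vale.Agent.P281.H64.TK.TS

section
variable {d : ℕ} {E Γ : Type} [TopologicalSpace E] [Group Γ] [MulAction Γ E]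

theorem fd_real {θ : Cm d → Cm d} {z : Cm d} (h : AnalyticAt ℂ θ z) (v : Cm d) :
    fderiv ℝ θ z v = fderiv ℂ θ z v := by
  rw [h.differentiableAt.fderiv_restrictScalars ℝ]; rfl

theorem fd_jac (θ : Cm d → Cm d) (z v : Cm d) (l : Fin d) :
    fderiv ℂ θ z v l = ∑ k, jac θ z l k * v k := by
  have h : v = ∑ k, v k • (Pi.single k (1 : ℂ) : Cm d) := by
    ext m
    simp [Finset.sum_apply, Pi.single_apply]
  conv_lhs => rw [h]
  rw [map_sum, Finset.sum_apply]
  refine Finset.sum_congr rfl fun k _ => ?_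
  rw [map_smul, Pi.smul_apply, smul_eq_mul, mul_comm]
  rfl

/-- The transition maps are holomorphic. -/
theorem tr_hol (S : Sheets d E Γ) {i j : Fin S.N} {z z' : Cm d} {ψ : Cm d → Cm d}
    (hz : z ∈ ball (0 : Cm d) 3) (hz' : z' ∈ ball (0 : Cm d) 3) (h : Tr S S id i j z z' ψ) :
    ∃ θ : Cm d → Cm d, AnalyticAt ℂ θ z ∧ θ z = z' ∧ (∀ᶠ u in 𝓝 z, S.σ i u = S.σ j (θ u)) ∧
      ψ =ᶠ[𝓝 z] θ := by
  obtain ⟨h1, h2, h3⟩ := h
  have e : S.σ i z = (1 : Γ) • S.σ j z' := by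
    rw [one_smul, ← h2]; exact h3.self_of_nhds
  obtain ⟨θ, t1, t2, t3⟩ := S.hol i j z hz z' hz' 1 e
  refine ⟨θ, t1, t2, ?_, ?_⟩
  · filter_upwards [t3] with u hu
    rw [hu, one_smul]
  · have o1 : ∀ᶠ u in 𝓝 z, ψ u ∈ ball (0 : Cm d) 3 :=
      h1.continuousAt.eventually_mem (isOpen_ball.mem_nhds (by rw [h2]; exact hz'))
    have o2 : ∀ᶠ u in 𝓝 z, θ u ∈ ball (0 : Cm d) 3 :=
      t1.continuousAt.eventually_mem (isOpen_ball.mem_nhds (by rw [t2]; exact hz'))
    filter_upwards [o1, o2, h3, t3] with u a b c e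
    refine (S.inj j _ a _ b 1 ?_).2
    rw [one_smul]
    have c' : S.σ i u = S.σ j (ψ u) := c
    rw [← c', e, one_smul]

theorem hol_tr (S : Sheets d E Γ) {i j : Fin S.N} {z z' : Cm d} {θ : Cm d → Cm d}
    (h : AnalyticAt ℂ θ z) (h' : θ z = z') (h'' : ∀ᶠ u in 𝓝 z, S.σ i u = S.σ j (θ u)) :
    Tr S S id i j z z' θ :=
  ⟨(h.contDiffAt (n := ∞)).restrict_scalars ℝ, h', h''⟩

theorem mem3 {z : Cm d} (h : ‖z‖ < 1) : z ∈ ball (0 : Cm d) 3 := by
  rw [mem_ball_zero_iff]; linarith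

/-- Any point is in a sheet, when the group is trivial. -/
theorem cov [Subsingleton Γ] (S : Sheets d E Γ) (e : E) :
    ∃ (i : Fin S.N) (z : Cm d), ‖z‖ < 1 ∧ S.σ i z = e := by
  obtain ⟨γ, i, z, h, h'⟩ := S.cover e
  refine ⟨i, z, h, ?_⟩
  rw [Subsingleton.elim γ 1, one_smul] at h'
  exact h'

theorem tr_ex [Subsingleton Γ] (S : Sheets d E Γ) {i j : Fin S.N} {z z' : Cm d}
    (hz : z ∈ ball (0 : Cm d) 3) (hz' : z' ∈ ball (0 : Cm d) 3) (h : S.σ i z = S.σ j z') :
    ∃ θ : Cm d → Cm d, AnalyticAt ℂ θ z ∧ θ z = z' ∧ ∀ᶠ u in 𝓝 z, S.σ i u = S.σ j (θ u) := by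
  obtain ⟨θ, t1, t2, t3⟩ := S.hol i j z hz z' hz' 1 (by rw [one_smul]; exact h)
  refine ⟨θ, t1, t2, ?_⟩
  filter_upwards [t3] with u hu
  rw [hu, one_smul]

/-- Near `z`, a transition map is a transition map. -/
theorem tr_ev (S : Sheets d E Γ) {i j : Fin S.N} {z z' : Cm d} {ψ : Cm d → Cm d}
    (hz : z ∈ ball (0 : Cm d) 3) (hz' : z' ∈ ball (0 : Cm d) 3) (h : Tr S S id i j z z' ψ) :
    ∀ᶠ u in 𝓝 z, u ∈ ball (0 : Cm d) 3 ∧ ψ u ∈ ball (0 : Cm d) 3 ∧
      Tr S S id i j u (ψ u) ψ := by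
  obtain ⟨θ, t1, t2, t3, t4⟩ := tr_hol S hz hz' h
  obtain ⟨h1, h2, h3⟩ := h
  have o1 : ∀ᶠ u in 𝓝 z, ψ u ∈ ball (0 : Cm d) 3 :=
    h1.continuousAt.eventually_mem (isOpen_ball.mem_nhds (by rw [h2]; exact hz'))
  filter_upwards [o1, isOpen_ball.mem_nhds hz, h3.eventually_nhds, t4.eventually_nhds,
    t1.eventually_analyticAt] with u a b c e f
  refine ⟨b, a, ?_, rfl, c⟩
  exact ((f.contDiffAt (n := ∞)).restrict_scalars ℝ).congr_of_eventuallyEq e

/-! ### Algebra of forms -/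

/-- The flip, as a continuous linear map. -/
def fl : L2 d →L[ℝ] L2 d :=
  ((ContinuousLinearMap.flipₗᵢ ℝ (Cm d) (Cm d) ℂ).toContinuousLinearEquiv :
    (Cm d →L[ℝ] Cm d →L[ℝ] ℂ) ≃L[ℝ] (Cm d →L[ℝ] Cm d →L[ℝ] ℂ))

theorem fl_apply (α : L2 d) : fl α = α.flip := rfl

theorem sm_d1 {β : Cm d → L1 d} {z : Cm d} (h : ContDiffAt ℝ ∞ β z) :
    ContDiffAt ℝ ∞ (d1 β) z := by
  have h1 : ContDiffAt ℝ ∞ (fderiv ℝ β) z := h.fderiv_right (by simp)
  have h0 : ContDiffAt ℝ ∞ (fun α : L2 d => fl α) (fderiv ℝ β z) :=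
    (ContinuousLinearMap.contDiff (𝕜 := ℝ) (E := L2 d) (F := L2 d) fl).contDiffAt
  have h2 : ContDiffAt ℝ ∞ (fun z => fl (fderiv ℝ β z)) z :=
    ContDiffAt.comp (𝕜 := ℝ) (E := Cm d) (F := L2 d) (G := L2 d) (g := fun α => fl α)
      (f := fun z => fderiv ℝ β z) z h0 h1
  exact h1.sub h2

theorem d1_apply (β : Cm d → L1 d) (z u v : Cm d) :
    d1 β z u v = fderiv ℝ β z u v - fderiv ℝ β z v u := rfl

theorem fd_flip {β : Cm d → L1 d} {z : Cm d} (h : ContDiffAt ℝ ∞ β z) (u v w : Cm d) :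
    fderiv ℝ (d1 β) z u v w =
      fderiv ℝ (fderiv ℝ β) z u v w - fderiv ℝ (fderiv ℝ β) z u w v := by
  have h1 : ContDiffAt ℝ ∞ (fderiv ℝ β) z := h.fderiv_right (by simp)
  have h1' : DifferentiableAt ℝ (fderiv ℝ β) z := h1.differentiableAt (by simp)
  have h0 : HasFDerivAt (fun α : L2 d => fl α) fl (fderiv ℝ β z) :=
    ContinuousLinearMap.hasFDerivAt (𝕜 := ℝ) (E := L2 d) (F := L2 d) fl
  have h2 : HasFDerivAt (fun y => fl (fderiv ℝ β y)) (fl.comp (fderiv ℝ (fderiv ℝ β) z)) z :=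
    HasFDerivAt.comp (𝕜 := ℝ) (E := Cm d) (F := L2 d) (G := L2 d) (g := fun α => fl α)
      (f := fun z => fderiv ℝ β z) z h0 h1'.hasFDerivAt
  have h3 := HasFDerivAt.fun_sub (𝕜 := ℝ) (E := Cm d) (F := L2 d)
    (f := fun y => fderiv ℝ β y) (g := fun y => fl (fderiv ℝ β y)) h1'.hasFDerivAt h2
  have h4 : fderiv ℝ (d1 β) z = _ := h3.fderiv
  rw [h4]
  rfl

theorem two_le : minSmoothness ℝ 2 ≤ (∞ : WithTop ℕ∞) := by
  rw [minSmoothness_of_isRCLikeNormedField]
  exact WithTop.coe_le_coe.2 le_top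

theorem fd_symm {β : Cm d → L1 d} {z : Cm d} (h : ContDiffAt ℝ ∞ β z) (u v w : Cm d) :
    fderiv ℝ (fderiv ℝ β) z u v w = fderiv ℝ (fderiv ℝ β) z v u w := by
  have := (h.isSymmSndFDerivAt two_le).eq u v
  rw [this]

theorem cl_d1 {β : Cm d → L1 d} {z : Cm d} (h : ContDiffAt ℝ ∞ β z) (u v w : Cm d) :
    fderiv ℝ (d1 β) z u v w + fderiv ℝ (d1 β) z v w u + fderiv ℝ (d1 β) z w u v = 0 := by
  rw [fd_flip h, fd_flip h, fd_flip h, fd_symm h v u w, fd_symm h w v u, fd_symm h w u v]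
  ring

/-- The differential of a smooth 1-form is a closed 2-form. -/
theorem cl2_d1 {S : Sheets d E Γ} {β : Fin S.N → Cm d → L1 d} (h : F1On S univ β) :
    Cl2 S (fun i z => d1 (β i) z) where
  smooth i z hz _ := sm_d1 (h.smooth i z hz trivial)
  alt i z hz _ u v := by simp only [d1_apply]; ring
  closed i z hz u v w := cl_d1 (h.smooth i z hz trivial) u v w
  change i j z hz z' hz' _ ψ hψ u v := by
    have h0 : ContDiffAt ℝ ∞ ψ z := hψ.1
    have h2 : ψ z = z' := hψ.2.1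
    have b2 : DifferentiableAt ℝ (β j) (ψ z) := by
      rw [h2]; exact (h.smooth j z' hz' trivial).differentiableAt (by simp)
    have b3 : DifferentiableAt ℝ ψ z := h0.differentiableAt (by simp)
    have b4 : DifferentiableAt ℝ (fderiv ℝ ψ) z :=
      (h0.fderiv_right (m := ∞) (by simp)).differentiableAt (by simp)
    have e : β i =ᶠ[𝓝 z] fun y => (β j (ψ y)).comp (fderiv ℝ ψ y) := by
      filter_upwards [tr_ev S hz hz' hψ] with y hy
      ext v
      exact h.change i j y hy.1 (ψ y) hy.2.1 trivial ψ hy.2.2 v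
    have hb : HasFDerivAt (fun y => β j (ψ y)) ((fderiv ℝ (β j) (ψ z)).comp (fderiv ℝ ψ z)) z :=
      b2.hasFDerivAt.comp z b3.hasFDerivAt
    have key := hb.clm_comp b4.hasFDerivAt
    have sy : ∀ u v, fderiv ℝ (fderiv ℝ ψ) z u v = fderiv ℝ (fderiv ℝ ψ) z v u := fun u v =>
      (h0.isSymmSndFDerivAt two_le).eq u v
    simp only [d1_apply]
    rw [e.fderiv_eq, key.fderiv]
    simp only [add_apply, ContinuousLinearMap.comp_apply, ContinuousLinearMap.flip_apply,
      ContinuousLinearMap.compL_apply, h2, sy u v]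
    ring

theorem cl2_add {S : Sheets d E Γ} {α α' : Fin S.N → Cm d → L2 d} (h : Cl2 S α)
    (h' : Cl2 S α') : Cl2 S (fun i z => α i z + α' i z) where
  smooth i z hz hV := (h.smooth i z hz hV).add (h'.smooth i z hz hV)
  alt i z hz hV u v := by
    simp only [add_apply, h.alt i z hz hV u v, h'.alt i z hz hV u v]; ring
  closed i z hz u v w := by
    have a : DifferentiableAt ℝ (α i) z := (h.smooth i z hz trivial).differentiableAt (by simp)
    have b : DifferentiableAt ℝ (α' i) z := (h'.smooth i z hz trivial).differentiableAt (by simp)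
    have e : ∀ x, fderiv ℝ (fun y => α i y + α' i y) z x =
        fderiv ℝ (α i) z x + fderiv ℝ (α' i) z x := fun x => by
      rw [fderiv_fun_add (𝕜 := ℝ) (E := Cm d) (F := L2 d) (f := α i) (g := α' i) a b]; rfl
    simp only [e, add_apply]
    linear_combination h.closed i z hz u v w + h'.closed i z hz u v w
  change i j z hz z' hz' hV ψ hψ u v := by
    simp only [add_apply, h.change i j z hz z' hz' hV ψ hψ u v,
      h'.change i j z hz z' hz' hV ψ hψ u v]

theorem cl2_sub {S : Sheets d E Γ} {α α' : Fin S.N → Cm d → L2 d} (h : Cl2 S α)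
    (h' : Cl2 S α') : Cl2 S (fun i z => α i z - α' i z) where
  smooth i z hz hV := (h.smooth i z hz hV).sub (h'.smooth i z hz hV)
  alt i z hz hV u v := by
    simp only [sub_apply, h.alt i z hz hV u v, h'.alt i z hz hV u v]; ring
  closed i z hz u v w := by
    have a : DifferentiableAt ℝ (α i) z := (h.smooth i z hz trivial).differentiableAt (by simp)
    have b : DifferentiableAt ℝ (α' i) z := (h'.smooth i z hz trivial).differentiableAt (by simp)
    have e : ∀ x, fderiv ℝ (fun y => α i y - α' i y) z x =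
        fderiv ℝ (α i) z x - fderiv ℝ (α' i) z x := fun x => by
      rw [fderiv_fun_sub (𝕜 := ℝ) (E := Cm d) (F := L2 d) (f := α i) (g := α' i) a b]; rfl
    simp only [e, sub_apply]
    linear_combination h.closed i z hz u v w - h'.closed i z hz u v w
  change i j z hz z' hz' hV ψ hψ u v := by
    simp only [sub_apply, h.change i j z hz z' hz' hV ψ hψ u v,
      h'.change i j z hz z' hz' hV ψ hψ u v]

theorem f1_add {S : Sheets d E Γ} {β β' : Fin S.N → Cm d → L1 d} (h : F1On S univ β)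
    (h' : F1On S univ β') : F1On S univ (fun i z => β i z + β' i z) where
  smooth i z hz hV := (h.smooth i z hz hV).add (h'.smooth i z hz hV)
  change i j z hz z' hz' hV ψ hψ v := by
    simp only [add_apply, h.change i j z hz z' hz' hV ψ hψ v,
      h'.change i j z hz z' hz' hV ψ hψ v]

theorem d1_add {β β' : Cm d → L1 d} {z : Cm d} (h : DifferentiableAt ℝ β z)
    (h' : DifferentiableAt ℝ β' z) : d1 (fun y => β y + β' y) z = d1 β z + d1 β' z := by
  ext u v
  have e := fderiv_fun_add h h'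
  simp only [d1_apply, add_apply, e]
  ring

end

end Vale.Agent.P281.H624.TS
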