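import Vale.Agent.P281.H624.TS.Hdg

/-!
# P281, project T-S, block C7 (helper624): the Hodge index theorem, assembly
-/

open Set Filter Metric MeasureTheory Vale.Agent.P272.K
open scoped Topology ContDiff ComplexConjugate ComplexOrder

noncomputable section

namespace Vale.Agent.P281.H624.TS

open Vale.Agent.P281.H64.TK Vale.Agent.P281.H64.TK.TS Vale.Agent.P272.K.C2

section
variable {E Γ : Type} [TopologicalSpace E] [T2Space E] [Group Γ] [Subsingleton Γ]
    [MulAction Γ E] [ContinuousConstSMul Γ E] {S : Sheets 2 E Γ}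

theorem cont_sq {f : Cm 2 → ℂ} (h : ∀ z ∈ ball (0 : Cm 2) 3, ContDiffAt ℝ ∞ f z) :
    ContinuousOn (fun z => ‖f z‖ ^ 2) (ball 0 3) := fun z hz =>
  ((h z hz).continuousAt.norm.pow 2).continuousWithinAt

theorem cont_sq' {f : Cm 2 → ℂ} (h : ∀ z ∈ ball (0 : Cm 2) 3, ContDiffAt ℝ ∞ f z) :
    ContinuousOn (fun z => ((‖f z‖ ^ 2 : ℝ) : ℂ)) (ball 0 3) := fun z hz =>
  (Complex.continuous_ofReal.continuousAt.comp
    ((h z hz).continuousAt.norm.pow 2)).continuousWithinAt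

/-- Step 1: remove the `(0,2)`-part. -/
theorem step1 (hA : AlgStmt) (h02 : Hodge02Stmt) {α : Fin S.N → Cm 2 → L2 2} (h : Cl2 S α)
    (hr : Real2 S α) (ho : ∀ s, HolD S s → wint S α (fun i z => sf2 (s i z)) = 0) {ε : ℝ}
    (hε : 0 < ε) : ∃ β : Fin S.N → Cm 2 → L1 2, F1On S univ β ∧
      (∀ i, ∀ z ∈ ball (0 : Cm 2) 3, ∀ u v, (d1 (β i) z u v).im = 0) ∧
      rI S (fun i z => ‖c02 (α i z - d1 (β i) z)‖ ^ 2) < ε := by
  have sm : ∀ i, ContDiffOn ℝ ∞ (fun z => c02 (α i z)) (ball 0 3) := fun i z hz =>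
    (c02_sm (h.smooth i z hz trivial)).contDiffWithinAt
  have ort : ∀ s, HolD S s → S.int (fun i z => c02 (α i z) * s i z) = 0 := by
    intro s hs
    have h1 := ho s hs
    have h2 : wint S α (fun i z => sf2 (s i z)) = 4 * S.int (fun i z => c02 (α i z) * s i z) := by
      rw [← int_mul]
      refine int_congr fun i z hz => ?_
      obtain ⟨t, H, -, e1, -, -, e4⟩ := hA (α i z) (h.alt i z hz trivial) (hr i z hz)
      rw [e4, c02_of e1]
      ring
    rw [h2] at h1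
    exact (mul_eq_zero.1 h1).resolve_left (by norm_num)
  obtain ⟨b, b1, b2, b3⟩ := h02 E Γ S (fun i z => c02 (α i z)) sm
    (fun i j z hz z' hz' θ t1 t2 t3 => c02_change h hA hr hz hz' t1 t2 t3) ort ε hε
  have c1 : ∀ i k, ContDiffOn ℝ ∞ (fun y => b i y k) (ball 0 3) := fun i k =>
    contDiffOn_pi.1 (b1 i) k
  have c2 : ∀ i k, ContDiffOn ℝ ∞ (fun y => conj (b i y k)) (ball 0 3) := fun i k y hy =>
    (contDiffAt_conj ((c1 i k).contDiffAt (isOpen_ball.mem_nhds hy))).contDiffWithinAt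
  refine ⟨fun i y => of1 (fun k => conj (b i y k)) (b i y), f1_b b1 b2, ?_, ?_⟩
  · intro i z hz u v
    exact im_d1 isOpen_ball hz (c1 i) u v
  · have e : ∀ i, ∀ z ∈ ball (0 : Cm 2) 3,
        ‖c02 (α i z - d1 (fun y => of1 (fun k => conj (b i y k)) (b i y)) z)‖ ^ 2 =
        ((((‖c02 (α i z) - (dzb 0 (fun u => b i u 1) z - dzb 1 (fun u => b i u 0) z)‖ ^ 2 : ℝ) :
          ℂ))).re := by
      intro i z hz
      rw [c02_sub, c02_d1 (p := fun y k => conj (b i y k)) (q := b i) isOpen_ball hz (c2 i) (c1 i),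
        Complex.ofReal_re]
    rw [rI_congr e, ← int_re]
    · exact b3
    · intro i
      refine cont_sq' fun z hz => ?_
      have c3 : ∀ k, ContDiffAt ℝ ∞ (fun y => b i y k) z := fun k =>
        (c1 i k).contDiffAt (isOpen_ball.mem_nhds hz)
      exact (c02_sm (h.smooth i z hz trivial)).sub
        ((contDiffAt_dzb 0 (c3 1) (by simp)).sub (contDiffAt_dzb 1 (c3 0) (by simp)))

omit [T2Space E] [Subsingleton Γ] [ContinuousConstSMul Γ E] in
theorem kah_sm {w : Fin S.N → Cm 2 → Matrix (Fin 2) (Fin 2) ℂ} (hk : Kah S w) (i : Fin S.N)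
    (j k : Fin 2) {z : Cm 2} (hz : z ∈ ball (0 : Cm 2) 3) :
    ContDiffAt ℝ ∞ (fun y => w i y j k) z :=
  (hk.smooth i j k).contDiffAt (isOpen_ball.mem_nhds hz)

theorem det_sm {w : Fin S.N → Cm 2 → Matrix (Fin 2) (Fin 2) ℂ} (hk : Kah S w) (i : Fin S.N)
    {z : Cm 2} (hz : z ∈ ball (0 : Cm 2) 3) : ContDiffAt ℝ ∞ (fun y => (w i y).det) z := by
  simp only [Matrix.det_fin_two]
  exact ((kah_sm hk i 0 0 hz).mul (kah_sm hk i 1 1 hz)).sub
    ((kah_sm hk i 0 1 hz).mul (kah_sm hk i 1 0 hz))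

theorem trc_sm {w : Fin S.N → Cm 2 → Matrix (Fin 2) (Fin 2) ℂ} (hk : Kah S w) (i : Fin S.N)
    {z : Cm 2} (hz : z ∈ ball (0 : Cm 2) 3) : ContDiffAt ℝ ∞ (fun y => (w i y).trace) z := by
  simp only [Matrix.trace_fin_two]
  exact (kah_sm hk i 0 0 hz).add (kah_sm hk i 1 1 hz)

theorem gg_sm {w : Fin S.N → Cm 2 → Matrix (Fin 2) (Fin 2) ℂ} (hk : Kah S w)
    {α : Fin S.N → Cm 2 → L2 2} (h : Cl2 S α) (i : Fin S.N)
    {z : Cm 2} (hz : z ∈ ball (0 : Cm 2) 3) :
    ContDiffAt ℝ ∞ (fun y => wd (α i y) (kf2 (w i y)) / (w i y).det) z := by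
  have h1 := wd_sm (h.smooth i z hz trivial) ((cl2_kah hk).smooth i z hz trivial)
  have h2 := det_sm hk i hz
  have h3 : (w i z).det ≠ 0 := (hk.posDef i z hz).det_pos.ne'
  simp only [div_eq_mul_inv]
  exact h1.mul ((contDiffAt_inv (𝕜 := ℝ) (𝕜' := ℂ) h3).comp z h2)

/-- Step 2: remove the trace. -/
theorem step2 [PreconnectedSpace E] (hW : WdStmt) (hL : LapStmt)
    {w : Fin S.N → Cm 2 → Matrix (Fin 2) (Fin 2) ℂ} (hk : Kah S w)
    {α : Fin S.N → Cm 2 → L2 2} (h : Cl2 S α) (hr : Real2 S α)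
    (h0 : wint S α (fun i z => kf2 (w i z)) = 0) {ε : ℝ} (hε : 0 < ε) :
    ∃ γ : Fin S.N → Cm 2 → L1 2, F1On S univ γ ∧
      (∀ i, ∀ z ∈ ball (0 : Cm 2) 3, ∃ H : Matrix (Fin 2) (Fin 2) ℂ, H.IsHermitian ∧
        d1 (γ i) z = kf2 H) ∧
      rI S (fun i z => ‖wd (α i z - d1 (γ i) z) (kf2 (w i z)) / (w i z).det‖ ^ 2 *
        (w i z).det.re) < ε := by
  have dne : ∀ i, ∀ z ∈ ball (0 : Cm 2) 3, (w i z).det ≠ 0 := fun i z hz =>
    (hk.posDef i z hz).det_pos.ne'
  have hc := cl2_kah hk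
  have inv : ∀ i j, ∀ z ∈ ball (0 : Cm 2) 3, ∀ z' ∈ ball (0 : Cm 2) 3, S.σ i z = S.σ j z' →
      wd (α i z) (kf2 (w i z)) / (w i z).det = wd (α j z') (kf2 (w j z')) / (w j z').det := by
    intro i j z hz z' hz' e
    obtain ⟨θ, t1, t2, t3⟩ := tr_ex S hz hz' e
    have tr := hol_tr S t1 t2 t3
    have e1 := hW (fderiv ℝ θ z) (α i z) (kf2 (w i z)) (α j z') (kf2 (w j z'))
      (h.alt j z' hz' trivial) (hc.alt j z' hz' trivial)
      (h.change i j z hz z' hz' trivial θ tr) (hc.change i j z hz z' hz' trivial θ tr)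
    have e2 := hW (fderiv ℝ θ z) (kf2 (w i z)) (kf2 (w i z)) (kf2 (w j z')) (kf2 (w j z'))
      (hc.alt j z' hz' trivial) (hc.alt j z' hz' trivial)
      (hc.change i j z hz z' hz' trivial θ tr) (hc.change i j z hz z' hz' trivial θ tr)
    rw [wd_self, wd_self] at e2
    have e3 : (w i z).det = (w j z').det * ((fderiv ℝ θ z).det : ℂ) := by
      linear_combination e2 / 2
    have d1 := dne i z hz
    have d2 := dne j z' hz'
    have d3 : ((fderiv ℝ θ z).det : ℂ) ≠ 0 := by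
      intro h; rw [e3, h, mul_zero] at d1; exact d1 rfl
    rw [e1, e3, mul_div_mul_right _ _ d3]
  choose I Z hZ1 hZ2 using cov S
  set G : Fin S.N → Cm 2 → ℂ := fun i z => wd (α i z) (kf2 (w i z)) / (w i z).det with hG
  have gim : ∀ i, ∀ z ∈ ball (0 : Cm 2) 3, (G i z).im = 0 := by
    intro i z hz
    have a : (wd (α i z) (kf2 (w i z))).im = 0 :=
      wd_im (hr i z hz) (kf2_im (hk.posDef i z hz).1)
    have b : (w i z).det.im = 0 := (Complex.pos_iff.1 (hk.posDef i z hz).det_pos).2.symm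
    rw [hG]
    simp only [Complex.div_im, a, b]
    simp
  have gE : ∀ i, ∀ z ∈ ball (0 : Cm 2) 3,
      ((fun e => (G (I e) (Z e)).re) (S.σ i z) : ℂ) = G i z := by
    intro i z hz
    have e1 : G (I (S.σ i z)) (Z (S.σ i z)) = G i z :=
      inv _ _ _ (mem3 (hZ1 _)) z hz (hZ2 _)
    apply Complex.ext
    · simp [e1]
    · simp [gim i z hz]
  have gsm : SmOn S univ (fun e => (((G (I e) (Z e)).re : ℝ) : ℂ)) := by
    intro i z hz _
    refine (gg_sm hk h i hz).congr_of_eventuallyEq ?_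
    filter_upwards [isOpen_ball.mem_nhds hz] with y hy using gE i y hy
  have hint : S.int (fun i z => (((G (I (S.σ i z)) (Z (S.σ i z))).re : ℝ) : ℂ) * (w i z).det) = 0 := by
    rw [← h0]
    refine int_congr fun i z hz => ?_
    have := gE i z hz
    simp only at this
    rw [this, hG]
    simp only
    rw [div_mul_cancel₀ _ (dne i z hz)]
  obtain ⟨φ, p1, p2⟩ := hL 2 E Γ S w (fun e => (G (I e) (Z e)).re) (by norm_num) hk gsm hint ε hε
  have hsm : ∀ i, ∀ y ∈ ball (0 : Cm 2) 3, ContDiffAt ℝ ∞ (fun y => (φ (S.σ i y) : ℂ)) y :=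
    fun i y hy => p1 i y hy trivial
  have hd : ∀ i, ∀ z ∈ ball (0 : Cm 2) 3, d1 (fun y => of1 0 (fun k => Complex.I / 2 *
      dzb k (fun y => (φ (S.σ i y) : ℂ)) y)) z = kf2 (cHess (fun y => φ (S.σ i y)) z) :=
    fun i z hz => d1_phi (φ := fun y => φ (S.σ i y)) isOpen_ball hz (hsm i)
  refine ⟨_, f1_phi p1, ?_, ?_⟩
  · intro i z hz
    refine ⟨cHess (fun y => φ (S.σ i y)) z, ?_, hd i z hz⟩
    have h1 : ContDiffAt ℝ ∞ (fun y => (φ (S.σ i y) : ℝ)) z :=
      Complex.reCLM.contDiff.contDiffAt.comp z (hsm i z hz)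
    exact cHess_isHermitian (h1.of_le (WithTop.coe_le_coe.2 le_top))
  · have e' : ∀ i, ∀ z ∈ ball (0 : Cm 2) 3,
        ‖((w i z)⁻¹ * cHess (fun u => φ (S.σ i u)) z).trace -
          (G (I (S.σ i z)) (Z (S.σ i z))).re‖ =
        ‖wd (α i z - d1 (fun y => of1 0 (fun k => Complex.I / 2 *
          dzb k (fun y => (φ (S.σ i y) : ℂ)) y)) z) (kf2 (w i z)) / (w i z).det‖ := by
      intro i z hz
      have := gE i z hz
      simp only at this
      rw [this, hd i z hz, wd_sub_left, wd_kw (dne i z hz), sub_div,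
        mul_div_cancel_left₀ _ (dne i z hz), norm_sub_rev]
    have e : ∀ i, ∀ z ∈ ball (0 : Cm 2) 3,
        ‖wd (α i z - d1 (fun y => of1 0 (fun k => Complex.I / 2 *
          dzb k (fun y => (φ (S.σ i y) : ℂ)) y)) z) (kf2 (w i z)) / (w i z).det‖ ^ 2 *
            (w i z).det.re =
        (((‖((w i z)⁻¹ * cHess (fun u => φ (S.σ i u)) z).trace -
          (G (I (S.σ i z)) (Z (S.σ i z))).re‖ ^ 2 : ℝ) : ℂ) * (w i z).det).re := by
      intro i z hz
      rw [Complex.re_ofReal_mul, e' i z hz]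
    rw [rI_congr e, ← int_re]
    · exact p2
    · intro i
      have hcl := cl2_sub h (cl2_d1 (f1_phi p1))
      refine ((cont_sq' fun z hz => gg_sm hk hcl i hz).mul
        (cont_of fun z hz => det_sm hk i hz)).congr fun z hz => ?_
      simp only [e' i z hz]
      rfl

theorem c02_kf (H : Matrix (Fin 2) (Fin 2) ℂ) : c02 (kf2 H) = 0 := by
  have := c02_of (α := kf2 H) (s := 0) (H := H) (fun u v => by simp [sf2_apply])
  simpa using this

/-- Both steps. -/
theorem approx [PreconnectedSpace E] (hS : StokesStmt) (hW : WdStmt) (h02 : Hodge02Stmt)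
    (hL : LapStmt) (hA : AlgStmt)
    {w : Fin S.N → Cm 2 → Matrix (Fin 2) (Fin 2) ℂ} {α : Fin S.N → Cm 2 → L2 2} (hk : Kah S w)
    (h : Cl2 S α) (hr : Real2 S α) (h0 : wint S α (fun i z => kf2 (w i z)) = 0)
    (ho : ∀ s, HolD S s → wint S α (fun i z => sf2 (s i z)) = 0) {ε : ℝ} (hε : 0 < ε) :
    ∃ β : Fin S.N → Cm 2 → L1 2, F1On S univ β ∧ Real2 S (fun i z => α i z - d1 (β i) z) ∧
      rI S (fun i z => ‖c02 (α i z - d1 (β i) z)‖ ^ 2) < ε ∧
      rI S (fun i z => ‖wd (α i z - d1 (β i) z) (kf2 (w i z)) / (w i z).det‖ ^ 2 *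
        (w i z).det.re) < ε := by
  have hc := cl2_kah hk
  obtain ⟨β, b1, b2, b3⟩ := step1 hA h02 h hr ho hε
  have h' := cl2_sub h (cl2_d1 b1)
  have hr' : Real2 S (fun i z => α i z - d1 (β i) z) := by
    intro i z hz u v
    rw [sub_apply, sub_apply, Complex.sub_im, hr i z hz, b2 i z hz, sub_zero]
  have h0' : wint S (fun i z => α i z - d1 (β i) z) (fun i z => kf2 (w i z)) = 0 := by
    have e : wint S (fun i z => α i z - d1 (β i) z) (fun i z => kf2 (w i z)) =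
        wint S α (fun i z => kf2 (w i z)) -
          wint S (fun i z => d1 (β i) z) (fun i z => kf2 (w i z)) := by
      simp only [wint]
      rw [← int_sub (cont_wd h hc) (cont_wd (cl2_d1 b1) hc)]
      exact int_congr fun i z _ => wd_sub_left _ _ _
    rw [e, h0, hS E Γ S _ β hc b1, sub_zero]
  obtain ⟨γ, g1, g2, g3⟩ := step2 hW hL hk h' hr' h0' hε
  have hd : ∀ i, ∀ z ∈ ball (0 : Cm 2) 3, α i z - d1 (fun y => β i y + γ i y) z =
      α i z - d1 (β i) z - d1 (γ i) z := by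
    intro i z hz
    rw [d1_add ((b1.smooth i z hz trivial).differentiableAt (by simp))
      ((g1.smooth i z hz trivial).differentiableAt (by simp))]
    ext u v
    simp only [sub_apply, add_apply]
    ring
  refine ⟨fun i z => β i z + γ i z, f1_add b1 g1, ?_, ?_, ?_⟩
  · intro i z hz u v
    obtain ⟨H, H1, H2⟩ := g2 i z hz
    simp only [hd i z hz]
    rw [sub_apply, sub_apply, Complex.sub_im, hr' i z hz, H2, kf2_im H1, sub_zero]
  · refine lt_of_eq_of_lt (rI_congr fun i z hz => ?_) b3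
    obtain ⟨H, H1, H2⟩ := g2 i z hz
    rw [hd i z hz, c02_sub (α i z - d1 (β i) z), H2, c02_kf, sub_zero]
  · refine lt_of_eq_of_lt (rI_congr fun i z hz => ?_) g3
    rw [hd i z hz]

theorem cont_NN {w : Fin S.N → Cm 2 → Matrix (Fin 2) (Fin 2) ℂ} {α : Fin S.N → Cm 2 → L2 2}
    (hk : Kah S w) (h : Cl2 S α) (i : Fin S.N) :
    ContinuousOn (fun z => NN (w i z) (α i z)) (ball 0 3) := by
  have c1 : ContinuousOn (fun z => ‖c02 (α i z)‖ ^ 2) (ball 0 3) :=
    cont_sq fun z hz => c02_sm (h.smooth i z hz trivial)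
  have c2 : ContinuousOn (fun z => ‖wd (α i z) (kf2 (w i z)) / (w i z).det‖ ^ 2) (ball 0 3) :=
    cont_sq fun z hz => gg_sm hk h i hz
  have c3 : ContinuousOn (fun z => (w i z).det.re) (ball 0 3) :=
    Complex.continuous_re.comp_continuousOn (cont_of fun z hz => det_sm hk i hz)
  have c4 : ContinuousOn (fun z => (wd (α i z) (α i z)).re) (ball 0 3) :=
    Complex.continuous_re.comp_continuousOn (cont_wd h h i)
  exact ((continuousOn_const.mul c1).add (c2.mul c3)).sub c4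

/-- The integrated identity. -/
theorem int_NN {w : Fin S.N → Cm 2 → Matrix (Fin 2) (Fin 2) ℂ} {α : Fin S.N → Cm 2 → L2 2}
    (hk : Kah S w) (h : Cl2 S α) :
    rI S (fun i z => NN (w i z) (α i z)) + (wint S α α).re = 8 * rI S (fun i z => ‖c02 (α i z)‖ ^ 2) +
      rI S (fun i z => ‖wd (α i z) (kf2 (w i z)) / (w i z).det‖ ^ 2 * (w i z).det.re) := by
  have c1 : ∀ i, ContinuousOn (fun z => ‖c02 (α i z)‖ ^ 2) (ball 0 3) := fun i =>
    cont_sq fun z hz => c02_sm (h.smooth i z hz trivial)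
  have c2 : ∀ i, ContinuousOn (fun z => ‖wd (α i z) (kf2 (w i z)) / (w i z).det‖ ^ 2) (ball 0 3) :=
    fun i => cont_sq fun z hz => gg_sm hk h i hz
  have c3 : ∀ i, ContinuousOn (fun z => (w i z).det.re) (ball 0 3) := fun i =>
    Complex.continuous_re.comp_continuousOn (cont_of fun z hz => det_sm hk i hz)
  have c4 : ∀ i, ContinuousOn (fun z => (wd (α i z) (α i z)).re) (ball 0 3) := fun i =>
    Complex.continuous_re.comp_continuousOn (cont_wd h h i)
  have c5 : ∀ i, ContinuousOn (fun z => 8 * ‖c02 (α i z)‖ ^ 2) (ball 0 3) := fun i =>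
    continuousOn_const.mul (c1 i)
  have c6 : ∀ i, ContinuousOn (fun z => ‖wd (α i z) (kf2 (w i z)) / (w i z).det‖ ^ 2 *
      (w i z).det.re) (ball 0 3) := fun i => (c2 i).mul (c3 i)
  rw [wint, int_re (cont_wd h h), ← rI_mul, ← rI_add (cont_NN hk h) c4, ← rI_add c5 c6]
  refine rI_congr fun i z _ => ?_
  simp only [NN]
  ring

theorem nn_nonneg (hA : AlgStmt) {w : Fin S.N → Cm 2 → Matrix (Fin 2) (Fin 2) ℂ}
    {α : Fin S.N → Cm 2 → L2 2} (hk : Kah S w) (h : Cl2 S α) (hr : Real2 S α) :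
    0 ≤ rI S (fun i z => NN (w i z) (α i z)) := by
  have : rI S (fun i z => (0 : ℝ)) ≤ rI S (fun i z => NN (w i z) (α i z)) := by
    refine rI_mono (fun i => continuousOn_const) (cont_NN hk h) fun i z hz => ?_
    exact (pt_bd hA (hk.posDef i z (b13 hz)) (h.alt i z (b13 hz) trivial)
      (hr i z (b13 hz))).1
  simpa [rI] using this

theorem exists_C {w : Fin S.N → Cm 2 → Matrix (Fin 2) (Fin 2) ℂ} (hk : Kah S w) :
    ∃ C : ℝ, 0 ≤ C ∧ ∀ i, ∀ z ∈ closedBall (0 : Cm 2) 1,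
      8 * ((w i z).trace.re ^ 2 / (w i z).det.re) ≤ C := by
  have : ∀ i, ∃ C : ℝ, 0 ≤ C ∧ ∀ z ∈ closedBall (0 : Cm 2) 1,
      8 * ((w i z).trace.re ^ 2 / (w i z).det.re) ≤ C := by
    intro i
    have hc : ContinuousOn (fun z => 8 * ((w i z).trace.re ^ 2 / (w i z).det.re))
        (closedBall 0 1) := by
      refine continuousOn_const.mul (ContinuousOn.div ?_ ?_ fun z hz => ?_)
      · exact ((Complex.continuous_re.comp_continuousOn
          (cont_of fun z hz => trc_sm hk i hz)).pow 2).mono b13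
      · exact (Complex.continuous_re.comp_continuousOn
          (cont_of fun z hz => det_sm hk i hz)).mono b13
      · exact (Complex.pos_iff.1 (hk.posDef i z (b13 hz)).det_pos).1.ne'
    obtain ⟨C, hC⟩ := (isCompact_closedBall (0 : Cm 2) 1).bddAbove_image hc
    refine ⟨max C 0, le_max_right _ _, fun z hz => ?_⟩
    exact (hC ⟨z, hz, rfl⟩).trans (le_max_left _ _)
  choose C hC0 hC using this
  exact ⟨∑ i, C i, Finset.sum_nonneg fun i _ => hC0 i, fun i z hz => (hC i z hz).trans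
    (Finset.single_le_sum (fun i _ => hC0 i) (Finset.mem_univ i))⟩

theorem cont_nm {f : Cm 2 → L2 2} (h : ∀ z ∈ ball (0 : Cm 2) 3, ContDiffAt ℝ ∞ f z) :
    ContinuousOn (fun z => ‖f z‖ ^ 2) (ball 0 3) := by
  intro z hz
  have h1 : ContinuousAt f z := (h z hz).continuousAt
  have h2 : ContinuousAt (fun z => ‖f z‖) z :=
    ContinuousAt.comp (g := fun α : L2 2 => ‖α‖)
      (continuous_norm (E := Cm 2 →L[ℝ] Cm 2 →L[ℝ] ℂ)).continuousAt h1
  exact (h2.pow 2).continuousWithinAt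

theorem norm_le (hA : AlgStmt) {w : Fin S.N → Cm 2 → Matrix (Fin 2) (Fin 2) ℂ}
    {α : Fin S.N → Cm 2 → L2 2} (hk : Kah S w) (h : Cl2 S α) (hr : Real2 S α) {C : ℝ}
    (hC : ∀ i, ∀ z ∈ closedBall (0 : Cm 2) 1,
      8 * ((w i z).trace.re ^ 2 / (w i z).det.re) ≤ C) :
    rI S (fun i z => ‖α i z‖ ^ 2) ≤ 32 * rI S (fun i z => ‖c02 (α i z)‖ ^ 2) +
      C * rI S (fun i z => NN (w i z) (α i z)) := by
  have c0 : ∀ i, ContinuousOn (fun z => ‖α i z‖ ^ 2) (ball 0 3) := fun i =>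
    cont_nm fun z hz => h.smooth i z hz trivial
  have c1 : ∀ i, ContinuousOn (fun z => 32 * ‖c02 (α i z)‖ ^ 2) (ball 0 3) := fun i =>
    continuousOn_const.mul (cont_sq fun z hz => c02_sm (h.smooth i z hz trivial))
  have c2 : ∀ i, ContinuousOn (fun z => C * NN (w i z) (α i z)) (ball 0 3) := fun i =>
    continuousOn_const.mul (cont_NN hk h i)
  have c3 : ∀ i, ContinuousOn (fun z => 32 * ‖c02 (α i z)‖ ^ 2 + C * NN (w i z) (α i z))
    (ball 0 3) := fun i => (c1 i).add (c2 i)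
  rw [← rI_mul, ← rI_mul, ← rI_add c1 c2]
  refine rI_mono c0 c3 fun i z hz => ?_
  obtain ⟨p1, p2⟩ := pt_bd hA (hk.posDef i z (b13 hz)) (h.alt i z (b13 hz) trivial)
    (hr i z (b13 hz))
  refine p2.trans (add_le_add le_rfl ?_)
  exact mul_le_mul_of_nonneg_right (hC i z hz) p1

/-- The quantities of the approximation. -/
theorem approx' [PreconnectedSpace E] (hS : StokesStmt) (hW : WdStmt) (h02 : Hodge02Stmt)
    (hL : LapStmt) (hA : AlgStmt)
    {w : Fin S.N → Cm 2 → Matrix (Fin 2) (Fin 2) ℂ} {α : Fin S.N → Cm 2 → L2 2} (hk : Kah S w)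
    (h : Cl2 S α) (hr : Real2 S α) (h0 : wint S α (fun i z => kf2 (w i z)) = 0)
    (ho : ∀ s, HolD S s → wint S α (fun i z => sf2 (s i z)) = 0) {C : ℝ} (hC0 : 0 ≤ C)
    (hC : ∀ i, ∀ z ∈ closedBall (0 : Cm 2) 1,
      8 * ((w i z).trace.re ^ 2 / (w i z).det.re) ≤ C) {ε : ℝ} (hε : 0 < ε) :
    (wint S α α).re ≤ 9 * ε ∧ ∃ β : Fin S.N → Cm 2 → L1 2, F1On S univ β ∧
      rI S (fun i z => ‖α i z - d1 (β i) z‖ ^ 2) ≤ 32 * ε + C * (9 * ε - (wint S α α).re) := by
  obtain ⟨β, b1, b2, b3, b4⟩ := approx hS hW h02 hL hA hk h hr h0 ho hε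
  have hcl := cl2_sub h (cl2_d1 b1)
  have e := int_NN hk hcl
  rw [wint_sq hS h b1] at e
  have h1 := nn_nonneg hA hk hcl b2
  have h2 := norm_le hA hk hcl b2 hC
  refine ⟨by linarith, β, b1, h2.trans ?_⟩
  refine add_le_add (by linarith) (mul_le_mul_of_nonneg_left ?_ hC0)
  linarith

end

/-- **C7**, the Hodge index theorem, from C1, C2b, C3, C4, C5, C6. -/
theorem hodgeIndex (hS : StokesStmt) (hW : WdStmt) (h02 : Hodge02Stmt) (hL : LapStmt)
    (hA : AlgStmt) (hE : L2ExStmt) : HodgeIndexStmt := by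
  intro E Γ _ _ _ _ _ _ _ S w α hk h hr h0 ho
  obtain ⟨C, hC0, hC⟩ := exists_C hk
  refine ⟨le_of_forall_pos_le_add fun ε hε => ?_, fun hz => ?_⟩
  · have := (approx' hS hW h02 hL hA hk h hr h0 ho hC0 hC (show 0 < ε / 9 by positivity)).1
    linarith
  · refine hE 2 E Γ S α (by norm_num) h fun ε hε => ?_
    have h9 : 0 < 33 + 9 * C := by positivity
    obtain ⟨-, β, b1, b2⟩ := approx' hS hW h02 hL hA hk h hr h0 ho hC0 hC
      (show 0 < ε / (33 + 9 * C) by positivity)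
    refine ⟨β, b1, lt_of_le_of_lt b2 ?_⟩
    rw [hz]
    have h1 : (33 + 9 * C) * (ε / (33 + 9 * C)) = ε := by field_simp
    have h2 : 0 < ε / (33 + 9 * C) := by positivity
    nlinarith

end Vale.Agent.P281.H624.TS
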