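import Vale.Agent.P281.H624.TS.Pot
import Mathlib.Analysis.Matrix.Order

/-!
# P281, project T-S, block C7 (helper624): pointwise bound of a real 2-form
-/

open Set Filter Metric MeasureTheory Vale.Agent.P272.K
open scoped Topology ContDiff ComplexConjugate ComplexOrder Matrix MatrixOrder

noncomputable section

namespace Vale.Agent.P281.H624.TS

open Vale.Agent.P281.H64.TK Vale.Agent.P281.H64.TK.TS Vale.Agent.P272.K.C2

/-- The square of the Frobenius norm. -/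
def fro (A : Matrix (Fin 2) (Fin 2) ℂ) : ℝ := ∑ i, ∑ j, ‖A i j‖ ^ 2

theorem fro_nonneg (A : Matrix (Fin 2) (Fin 2) ℂ) : 0 ≤ fro A :=
  Finset.sum_nonneg fun _ _ => Finset.sum_nonneg fun _ _ => sq_nonneg _

theorem fro_eq (A : Matrix (Fin 2) (Fin 2) ℂ) : ((fro A : ℝ) : ℂ) = (Aᴴ * A).trace := by
  simp only [fro, Matrix.trace, Matrix.diag, Matrix.mul_apply, Matrix.conjTranspose_apply,
    Fin.sum_univ_two, Complex.ofReal_add, Complex.star_def]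
  simp only [← Complex.normSq_eq_norm_sq, Complex.normSq_eq_conj_mul_self]
  ring

theorem fro_mul (A B : Matrix (Fin 2) (Fin 2) ℂ) : fro (A * B) ≤ fro A * fro B := by
  have h : ∀ i j, ‖(A * B) i j‖ ^ 2 ≤ (∑ k, ‖A i k‖ ^ 2) * ∑ k, ‖B k j‖ ^ 2 := by
    intro i j
    have h1 : ‖(A * B) i j‖ ≤ ∑ k, ‖A i k‖ * ‖B k j‖ := by
      rw [Matrix.mul_apply]
      exact (norm_sum_le _ _).trans (Finset.sum_le_sum fun k _ => (norm_mul _ _).le)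
    calc ‖(A * B) i j‖ ^ 2 ≤ (∑ k, ‖A i k‖ * ‖B k j‖) ^ 2 :=
          pow_le_pow_left₀ (norm_nonneg _) h1 2
      _ ≤ _ := Finset.sum_mul_sq_le_sq_mul_sq _ _ _
  calc fro (A * B) ≤ ∑ i, ∑ j, (∑ k, ‖A i k‖ ^ 2) * ∑ k, ‖B k j‖ ^ 2 :=
        Finset.sum_le_sum fun i _ => Finset.sum_le_sum fun j _ => h i j
    _ = fro A * fro B := by
        simp only [fro, Fin.sum_univ_two]
        ring

/-- `Σ |H_jk|² ≤ (tr w)² tr ((w⁻¹ H)²)`. -/
theorem fro_le {w H : Matrix (Fin 2) (Fin 2) ℂ} (hw : w.PosDef) (hH : H.IsHermitian) :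
    fro H ≤ w.trace.re ^ 2 * (w⁻¹ * H * (w⁻¹ * H)).trace.re := by
  obtain ⟨B, hB'⟩ := CStarAlgebra.nonneg_iff_eq_star_mul_self.1
    (Matrix.nonneg_iff_posSemidef.2 hw.posSemidef)
  have hB : w = Bᴴ * B := hB'
  have hd : w.det ≠ 0 := hw.det_pos.ne'
  have hdB : B.det ≠ 0 := by
    intro h
    apply hd
    rw [hB, Matrix.det_mul, h, mul_zero]
  have hu : IsUnit B.det := isUnit_iff_ne_zero.2 hdB
  have hu' : IsUnit Bᴴ.det := by
    rw [Matrix.det_conjTranspose]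
    exact hu.star
  set M := (Bᴴ)⁻¹ * H * B⁻¹ with hM
  have hMH : Mᴴ = M := by
    rw [hM, Matrix.conjTranspose_mul, Matrix.conjTranspose_mul, hH.eq,
      Matrix.conjTranspose_nonsing_inv, Matrix.conjTranspose_nonsing_inv,
      Matrix.conjTranspose_conjTranspose, Matrix.mul_assoc]
  have e1 : (w⁻¹ * H * (w⁻¹ * H)).trace = (Mᴴ * M).trace := by
    rw [hMH, hB, Matrix.mul_inv_rev, hM]
    have : B⁻¹ * Bᴴ⁻¹ * H * (B⁻¹ * Bᴴ⁻¹ * H) = B⁻¹ * (Bᴴ⁻¹ * H * B⁻¹ * (Bᴴ⁻¹ * H)) := by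
      simp only [Matrix.mul_assoc]
    rw [this, Matrix.trace_mul_comm]
    simp only [Matrix.mul_assoc]
  have e2 : H = Bᴴ * M * B := by
    rw [hM]
    have : Bᴴ * (Bᴴ⁻¹ * H * B⁻¹) * B = (Bᴴ * Bᴴ⁻¹) * H * (B⁻¹ * B) := by
      simp only [Matrix.mul_assoc]
    rw [this, Matrix.mul_nonsing_inv _ hu', Matrix.nonsing_inv_mul _ hu, one_mul, mul_one]
  have e3 : fro B = w.trace.re := by
    rw [hB, ← fro_eq, Complex.ofReal_re]
  have e4 : fro Bᴴ = fro B := by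
    simp only [fro, Matrix.conjTranspose_apply, norm_star, Fin.sum_univ_two]
    ring
  have e5 : (w⁻¹ * H * (w⁻¹ * H)).trace.re = fro M := by
    rw [e1, ← fro_eq, Complex.ofReal_re]
  rw [e5, ← e3]
  calc fro H = fro (Bᴴ * M * B) := by rw [← e2]
    _ ≤ fro (Bᴴ * M) * fro B := fro_mul _ _
    _ ≤ (fro Bᴴ * fro M) * fro B := mul_le_mul_of_nonneg_right (fro_mul _ _) (fro_nonneg _)
    _ = fro B ^ 2 * fro M := by rw [e4]; ring

theorem op_bd {α : L2 2} {s : ℂ} {H : Matrix (Fin 2) (Fin 2) ℂ}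
    (h : ∀ u v, α u v = sf2 s u v + conj (sf2 s u v) + kf2 H u v) :
    ‖α‖ ^ 2 ≤ 32 * ‖s‖ ^ 2 + 8 * fro H := by
  set D : ℝ := 4 * ‖s‖ + ∑ j, ∑ k, ‖H j k‖ with hD
  have D0 : 0 ≤ D := by positivity
  have hu : ∀ (u : Cm 2) (j : Fin 2), ‖u j‖ ≤ ‖u‖ := fun u j => norm_le_pi_norm u j
  have hm : ∀ (u v : Cm 2) (j k : Fin 2), ‖u j‖ * ‖v k‖ ≤ ‖u‖ * ‖v‖ := fun u v j k =>
    mul_le_mul (hu u j) (hu v k) (norm_nonneg _) (norm_nonneg _)
  have b1 : ∀ u v : Cm 2, ‖sf2 s u v‖ ≤ 2 * ‖s‖ * (‖u‖ * ‖v‖) := by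
    intro u v
    rw [sf2_apply, norm_mul]
    have : ‖u 0 * v 1 - u 1 * v 0‖ ≤ 2 * (‖u‖ * ‖v‖) := by
      refine (norm_sub_le _ _).trans ?_
      rw [norm_mul, norm_mul]
      linarith [hm u v 0 1, hm u v 1 0]
    nlinarith [norm_nonneg s]
  have b2 : ∀ u v : Cm 2, ‖kf2 H u v‖ ≤ (∑ j, ∑ k, ‖H j k‖) * (‖u‖ * ‖v‖) := by
    intro u v
    rw [kf2_apply, norm_mul, Finset.sum_mul]
    have e0 : ‖Complex.I / 2‖ = 1 / 2 := by simp
    rw [e0]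
    have e1 : ‖∑ j, ∑ k, H j k * (u j * conj (v k) - v j * conj (u k))‖ ≤
        ∑ j, ∑ k, ‖H j k‖ * (2 * (‖u‖ * ‖v‖)) := by
      refine (norm_sum_le _ _).trans (Finset.sum_le_sum fun j _ =>
        (norm_sum_le _ _).trans (Finset.sum_le_sum fun k _ => ?_))
      rw [norm_mul]
      refine mul_le_mul_of_nonneg_left ?_ (norm_nonneg _)
      refine (norm_sub_le _ _).trans ?_
      rw [norm_mul, norm_mul, RCLike.norm_conj, RCLike.norm_conj]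
      linarith [hm u v j k, hm v u j k, mul_comm ‖u‖ ‖v‖]
    calc 1 / 2 * ‖∑ j, ∑ k, H j k * (u j * conj (v k) - v j * conj (u k))‖
        ≤ 1 / 2 * ∑ j, ∑ k, ‖H j k‖ * (2 * (‖u‖ * ‖v‖)) :=
          mul_le_mul_of_nonneg_left e1 (by norm_num)
      _ = _ := by
          simp only [Fin.sum_univ_two]
          ring
  have b3 : ‖α‖ ≤ D := by
    refine ContinuousLinearMap.opNorm_le_bound _ D0 fun u => ?_
    refine ContinuousLinearMap.opNorm_le_bound _ (by positivity) fun v => ?_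
    rw [h]
    refine (norm_add_le _ _).trans ?_
    refine (add_le_add (norm_add_le _ _) (b2 u v)).trans ?_
    rw [RCLike.norm_conj, hD]
    have := b1 u v
    have e : (4 * ‖s‖ + ∑ j, ∑ k, ‖H j k‖) * ‖u‖ * ‖v‖ =
        4 * ‖s‖ * (‖u‖ * ‖v‖) + (∑ j, ∑ k, ‖H j k‖) * (‖u‖ * ‖v‖) := by ring
    rw [e]
    linarith
  have b0 : 0 ≤ ‖α‖ := by
    have := norm_nonneg (E := Cm 2 →L[ℝ] Cm 2 →L[ℝ] ℂ) α
    exact this
  calc ‖α‖ ^ 2 ≤ D ^ 2 := pow_le_pow_left₀ b0 b3 2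
    _ ≤ 32 * ‖s‖ ^ 2 + 8 * fro H := by
        simp only [hD, fro, Fin.sum_univ_two]
        nlinarith [sq_nonneg (4 * ‖s‖ - (‖H 0 0‖ + ‖H 0 1‖ + (‖H 1 0‖ + ‖H 1 1‖))),
          sq_nonneg (‖H 0 0‖ - ‖H 0 1‖), sq_nonneg (‖H 0 0‖ - ‖H 1 0‖),
          sq_nonneg (‖H 0 0‖ - ‖H 1 1‖), sq_nonneg (‖H 0 1‖ - ‖H 1 0‖),
          sq_nonneg (‖H 0 1‖ - ‖H 1 1‖), sq_nonneg (‖H 1 0‖ - ‖H 1 1‖)]

/-- The density of `|α₀|²`, up to the factor: see `pt_bd`. -/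
def NN (w : Matrix (Fin 2) (Fin 2) ℂ) (α : L2 2) : ℝ :=
  8 * ‖c02 α‖ ^ 2 + ‖wd α (kf2 w) / w.det‖ ^ 2 * w.det.re - (wd α α).re

theorem pt_bd (hA : AlgStmt) {w : Matrix (Fin 2) (Fin 2) ℂ} (hw : w.PosDef) {α : L2 2}
    (ha : ∀ u v, α u v = - α v u) (hr : ∀ u v, (α u v).im = 0) :
    0 ≤ NN w α ∧ ‖α‖ ^ 2 ≤ 32 * ‖c02 α‖ ^ 2 + 8 * (w.trace.re ^ 2 / w.det.re) * NN w α := by
  obtain ⟨s, H, hH, h1, h2, h3, -⟩ := hA α ha hr
  obtain ⟨h4, h5, h6⟩ := h3 w hw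
  have hc : ‖c02 α‖ = ‖s‖ := by rw [c02_of h1, RCLike.norm_conj]
  have hd : 0 < w.det := hw.det_pos
  have hd1 : 0 < w.det.re := (Complex.pos_iff.1 hd).1
  have hd2 : w.det = ((w.det.re : ℝ) : ℂ) := by
    apply Complex.ext
    · simp
    · simpa using (Complex.pos_iff.1 hd).2.symm
  have hT : wd α (kf2 w) / w.det = (w⁻¹ * H).trace := by
    rw [h4, mul_comm, mul_div_assoc, div_self hd.ne', mul_one]
  have hTr : (w⁻¹ * H).trace = (((w⁻¹ * H).trace.re : ℝ) : ℂ) := by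
    have e : conj (w⁻¹ * H).trace = (w⁻¹ * H).trace := by
      have : conj (w⁻¹ * H).trace = (w⁻¹ * H)ᴴ.trace := by
        rw [Matrix.trace_conjTranspose]; rfl
      rw [this, Matrix.conjTranspose_mul, hH.eq, Matrix.conjTranspose_nonsing_inv, hw.1.eq,
        Matrix.trace_mul_comm]
    exact (Complex.conj_eq_iff_real.1 e).elim fun r hr => by rw [hr]; simp
  have hn : ‖wd α (kf2 w) / w.det‖ ^ 2 = (w⁻¹ * H).trace.re ^ 2 := by
    rw [hT, hTr, Complex.norm_real, Complex.ofReal_re]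
    exact sq_abs _
  have key : NN w α = w.det.re * (w⁻¹ * H * (w⁻¹ * H)).trace.re := by
    rw [NN, hn, hc, h2, h5, hTr, hd2]
    simp only [Complex.add_re, Complex.mul_re, Complex.sub_re, Complex.ofReal_re,
      Complex.ofReal_im, ← Complex.ofReal_pow, Complex.re_ofNat, Complex.im_ofNat, Complex.sub_im]
    ring
  have hp : 0 ≤ (w⁻¹ * H * (w⁻¹ * H)).trace.re := (Complex.nonneg_iff.1 h6).1
  refine ⟨by rw [key]; positivity, ?_⟩
  have e : w.trace.re ^ 2 / w.det.re * NN w α =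
      w.trace.re ^ 2 * (w⁻¹ * H * (w⁻¹ * H)).trace.re := by
    rw [key]
    field_simp
  have := op_bd h1
  have h7 := fro_le hw hH
  rw [hc]
  calc ‖α‖ ^ 2 ≤ 32 * ‖s‖ ^ 2 + 8 * fro H := this
    _ ≤ 32 * ‖s‖ ^ 2 + 8 * (w.trace.re ^ 2 / w.det.re * NN w α) := by rw [e]; linarith
    _ = _ := by ring

end Vale.Agent.P281.H624.TS
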