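import Vale.Agent.P281.H624.TS.C7
import Vale.Agent.P281.H125.TS.C1
import Vale.Agent.P281.H4.TS.C5
import Vale.Agent.P281.H842.TS.C3
import Vale.Agent.P281.H399.TS.Lap
import Vale.Agent.P281.H295.TS.C6
import Vale.Agent.P281.H559.TS.A1
import Vale.Agent.P281.H352.TS.A3
import Vale.Agent.P281.H702.TS.A2
import Vale.Agent.P281.H702.TS.A4a
import Vale.Agent.P281.H89.TS.A4b

/-!
# P281, project T-S, block C7 (helper624): the Hodge index theorem, all inputs plugged
-/

namespace Vale.Agent.P281.H624.TS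

open Vale.Agent.P281

theorem hodgeIndexFin : H64.TK.TS.HodgeIndexStmt :=
  hodgeIndex H125.TS.c1 H125.TS.c2b H842.TS.hodge02 H399.TS.lapStmt H4.TS.alg
    (H295.TS.l2Ex H559.TS.good_stmt (H702.TS.coEx H352.TS.poinStmt)
      (H89.TS.coCob H352.TS.poinStmt H702.TS.part))

end Vale.Agent.P281.H624.TS
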