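import Vale.Agent.P281.H624.TS.Form
import Vale.Agent.P281.MF.Hol

/-!
# P281, project T-S (helper624): the Kähler form and the holomorphic 2-forms are closed
-/

open Set Filter Metric MeasureTheory Vale.Agent.P272.K
open scoped Topology ContDiff ComplexConjugate ComplexOrder

noncomputable section

namespace Vale.Agent.P281.H624.TS

open Vale.Agent.P281.H64.TK Vale.Agent.P281.H64.TK.TS Vale.Agent.P272.K.C2

@[simp] theorem mkL2_apply (f : Cm 2 →ₗ[ℝ] Cm 2 →ₗ[ℝ] ℂ) (u v : Cm 2) : mkL2 f u v = f u v := rfl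

theorem sf2_apply (s : ℂ) (u v : Cm 2) : sf2 s u v = s * (u 0 * v 1 - u 1 * v 0) := rfl

theorem kf2_apply (w : Matrix (Fin 2) (Fin 2) ℂ) (u v : Cm 2) :
    kf2 w u v = Complex.I / 2 * ∑ j, ∑ k, w j k * (u j * conj (v k) - v j * conj (u k)) := rfl

/-- `Df(u) = Σ ∂_j f u_j + ∂̄_j f conj u_j`. -/
theorem fd_wirt {n : ℕ} (f : Cm n → ℂ) (z u : Cm n) :
    fderiv ℝ f z u = ∑ j, (dz j f z * u j + dzb j f z * conj (u j)) := by
  have h : u = ∑ j, ((u j).re • (Pi.single j (1 : ℂ) : Cm n) +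
      (u j).im • (Pi.single j Complex.I : Cm n)) := by
    ext m
    simp only [Finset.sum_apply, Pi.add_apply, Pi.smul_apply, Pi.single_apply]
    rw [Finset.sum_eq_single m (by intro b _ hb; simp [hb.symm]) (by simp)]
    simp only [if_true, Complex.real_smul, mul_one]
    exact (Complex.re_add_im (u m)).symm
  conv_lhs => rw [h]
  rw [map_sum]
  refine Finset.sum_congr rfl fun j _ => ?_
  rw [map_add, map_smul, map_smul]
  simp only [dz, dzb, Complex.real_smul]
  have e1 : u j = (u j).re + (u j).im * Complex.I := (Complex.re_add_im (u j)).symm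
  have e2 : conj (u j) = (u j).re - (u j).im * Complex.I := by
    apply Complex.ext <;> simp
  rw [e2]
  linear_combination (-(fderiv ℝ f z (Pi.single j 1) -
    Complex.I * fderiv ℝ f z (Pi.single j Complex.I)) / 2) * e1 +
    ((u j).im * fderiv ℝ f z (Pi.single j Complex.I)) * Complex.I_sq

/-- `∂̄f(v) = (Df(v) + i Df(iv)) / 2`. -/
theorem fd_dbar {n : ℕ} (f : Cm n → ℂ) (z v : Cm n) :
    ∑ k, dzb k f z * conj (v k) =
      (fderiv ℝ f z v + Complex.I * fderiv ℝ f z (Complex.I • v)) / 2 := by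
  rw [fd_wirt f z v, fd_wirt f z (Complex.I • v), Finset.mul_sum, ← Finset.sum_add_distrib,
    Finset.sum_div]
  refine Finset.sum_congr rfl fun k _ => ?_
  simp only [Pi.smul_apply, smul_eq_mul, map_mul, Complex.conj_I]
  linear_combination (-(dz k f z * v k) / 2 + dzb k f z * conj (v k) / 2) * Complex.I_sq

theorem sm_of_apply {α : Cm 2 → L2 2} {V : Set (Cm 2)}
    (h : ∀ u v, ContDiffOn ℝ ∞ (fun z => α z u v) V) : ContDiffOn ℝ ∞ α V :=
  (contDiffOn_clm_apply (𝕜 := ℝ) (D := Cm 2) (E := Cm 2) (F := L1 2)).2 fun u =>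
    (contDiffOn_clm_apply (𝕜 := ℝ) (D := Cm 2) (E := Cm 2) (F := ℂ)).2 fun v => h u v

/-- A smooth matrix gives a smooth form. -/
theorem sm_kf2 {w : Cm 2 → Matrix (Fin 2) (Fin 2) ℂ} {V : Set (Cm 2)}
    (h : ∀ j k, ContDiffOn ℝ ∞ (fun y => w y j k) V) :
    ContDiffOn ℝ ∞ (fun y => kf2 (w y)) V := by
  refine sm_of_apply fun u v => ?_
  simp only [kf2_apply]
  exact contDiffOn_const.mul (ContDiffOn.sum fun j _ => ContDiffOn.sum fun k _ =>
    (h j k).mul contDiffOn_const)

theorem sm_sf2 {s : Cm 2 → ℂ} {V : Set (Cm 2)} (h : ContDiffOn ℝ ∞ s V) :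
    ContDiffOn ℝ ∞ (fun y => sf2 (s y)) V := by
  refine sm_of_apply fun u v => ?_
  simp only [sf2_apply]
  exact h.mul contDiffOn_const

/-- Evaluation at `(v, w)`, as a continuous linear map. -/
def ev (v w : Cm 2) : L2 2 →L[ℝ] ℂ :=
  (ContinuousLinearMap.apply ℝ ℂ w).comp (ContinuousLinearMap.apply ℝ (Cm 2 →L[ℝ] ℂ) v)

theorem fd_ev {α : Cm 2 → L2 2} {z : Cm 2} (h : DifferentiableAt ℝ α z) (u v w : Cm 2) :
    fderiv ℝ α z u v w = fderiv ℝ (fun y => α y v w) z u := by
  have h0 : HasFDerivAt (fun α : L2 2 => ev v w α) (ev v w) (α z) :=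
    ContinuousLinearMap.hasFDerivAt (𝕜 := ℝ) (E := L2 2) (F := ℂ) (ev v w)
  have h2 : HasFDerivAt (fun y => ev v w (α y)) ((ev v w).comp (fderiv ℝ α z)) z :=
    HasFDerivAt.comp (𝕜 := ℝ) (E := Cm 2) (F := L2 2) (G := ℂ) (g := fun α => ev v w α)
      (f := fun z => α z) z h0 h.hasFDerivAt
  have h3 : fderiv ℝ (fun y => α y v w) z = (ev v w).comp (fderiv ℝ α z) := h2.fderiv
  rw [h3]
  rfl

/-! ### The Kähler form -/

section
variable {E Γ : Type} [TopologicalSpace E] [Group Γ] [MulAction Γ E]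

theorem kf2_pull (J w : Matrix (Fin 2) (Fin 2) ℂ) (u v : Cm 2) :
    kf2 (J.transpose * w * J.map conj) u v = kf2 w (J.mulVec u) (J.mulVec v) := by
  simp only [kf2_apply, Fin.sum_univ_two, Matrix.mul_apply, Matrix.transpose_apply,
    Matrix.map_apply, Matrix.mulVec, dotProduct, map_add, map_mul]
  ring

theorem sf2_pull (J : Matrix (Fin 2) (Fin 2) ℂ) (s : ℂ) (u v : Cm 2) :
    sf2 (s * J.det) u v = sf2 s (J.mulVec u) (J.mulVec v) := by
  simp only [sf2_apply, Matrix.det_fin_two, Matrix.mulVec, dotProduct, Fin.sum_univ_two]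
  ring

theorem fd_mulVec {θ ψ : Cm 2 → Cm 2} {z : Cm 2} (h : AnalyticAt ℂ θ z)
    (h' : ψ =ᶠ[𝓝 z] θ) (u : Cm 2) : fderiv ℝ ψ z u = (jac θ z).mulVec u := by
  rw [h'.fderiv_eq, fd_real h]
  ext l
  rw [fd_jac]
  rfl

theorem herm_dzb {w : Cm 2 → Matrix (Fin 2) (Fin 2) ℂ} {z : Cm 2}
    (hw : ∀ᶠ y in 𝓝 z, (w y).IsHermitian) (df : ∀ j k, DifferentiableAt ℝ (fun y => w y j k) z)
    (l j k : Fin 2) : dzb l (fun y => w y j k) z = conj (dz l (fun y => w y k j) z) := by
  rw [← dzb_conj l (df k j)]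
  refine dzb_congr l ?_
  filter_upwards [hw] with y hy
  exact (hy.apply j k).symm

theorem cl2_kah [Subsingleton Γ] {S : Sheets 2 E Γ}
    {w : Fin S.N → Cm 2 → Matrix (Fin 2) (Fin 2) ℂ} (h : Kah S w) :
    Cl2 S (fun i z => kf2 (w i z)) where
  smooth i z hz _ := (sm_kf2 fun j k => h.smooth i j k).contDiffAt (isOpen_ball.mem_nhds hz)
  alt i z hz _ u v := by
    simp only [kf2_apply, Fin.sum_univ_two]
    ring
  change i j z hz z' hz' _ ψ hψ u v := by
    obtain ⟨θ, t1, t2, t3, t4⟩ := tr_hol S hz hz' hψ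
    rw [fd_mulVec t1 t4, fd_mulVec t1 t4, ← kf2_pull,
      ← h.change i j z hz z' hz' 1 θ t1 t2 (by simpa using t3)]
  closed i z hz u v x := by
    have df : ∀ j k, DifferentiableAt ℝ (fun y => w i y j k) z := fun j k =>
      ((h.smooth i j k).contDiffAt (isOpen_ball.mem_nhds hz)).differentiableAt (by simp)
    have hd : DifferentiableAt ℝ (fun y => kf2 (w i y)) z :=
      ((sm_kf2 fun j k => h.smooth i j k).contDiffAt
        (isOpen_ball.mem_nhds hz)).differentiableAt (by simp)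
    have hh : ∀ᶠ y in 𝓝 z, (w i y).IsHermitian := by
      filter_upwards [isOpen_ball.mem_nhds hz] with y hy using (h.posDef i y hy).1
    have c1 : ∀ k, dz 1 (fun y => w i y 0 k) z = dz 0 (fun y => w i y 1 k) z := fun k =>
      h.closed i z hz 0 k 1
    have c2 : ∀ j, dzb 1 (fun y => w i y j 0) z = dzb 0 (fun y => w i y j 1) z := fun j => by
      rw [herm_dzb hh df, herm_dzb hh df, c1]
    have key : ∀ u v x : Cm 2, fderiv ℝ (fun y => kf2 (w i y)) z u v x =
        Complex.I / 2 * ∑ j, ∑ k, (∑ l, (dz l (fun y => w i y j k) z * u l +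
          dzb l (fun y => w i y j k) z * conj (u l))) * (v j * conj (x k) - x j * conj (v k)) := by
      intro u v x
      rw [fd_ev hd]
      have e : HasFDerivAt (fun y => kf2 (w i y) v x) ((Complex.I / 2) • ∑ j, ∑ k,
          (v j * conj (x k) - x j * conj (v k)) • fderiv ℝ (fun y => w i y j k) z) z := by
        simp only [kf2_apply]
        refine HasFDerivAt.const_mul (HasFDerivAt.fun_sum fun j _ =>
          HasFDerivAt.fun_sum fun k _ => ?_) _
        exact (df j k).hasFDerivAt.mul_const _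
      rw [e.fderiv]
      simp only [smul_apply, sum_apply, smul_eq_mul, fd_wirt]
      congr 1
      refine Finset.sum_congr rfl fun j _ => Finset.sum_congr rfl fun k _ => ?_
      ring
    simp only [key, Fin.sum_univ_two, c1, c2]
    ring

theorem hold_sm {S : Sheets 2 E Γ} {s : Fin S.N → Cm 2 → ℂ} (h : HolD S s) (i : Fin S.N) :
    ContDiffOn ℝ ∞ (s i) (ball 0 3) :=
  fun _ hz => (((Vale.Agent.P281.MF.analyticAt_of_differentiableOn isOpen_ball (h.hol i)
    hz).contDiffAt (n := ∞)).restrict_scalars ℝ).contDiffWithinAt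

theorem cl2_hol [Subsingleton Γ] {S : Sheets 2 E Γ} {s : Fin S.N → Cm 2 → ℂ} (h : HolD S s) :
    Cl2 S (fun i z => sf2 (s i z)) where
  smooth i z hz _ := (sm_sf2 (hold_sm h i)).contDiffAt (isOpen_ball.mem_nhds hz)
  alt i z hz _ u v := by
    simp only [sf2_apply]
    ring
  change i j z hz z' hz' _ ψ hψ u v := by
    obtain ⟨θ, t1, t2, t3, t4⟩ := tr_hol S hz hz' hψ
    rw [fd_mulVec t1 t4, fd_mulVec t1 t4, ← sf2_pull, ← h.change i j z hz z' hz' θ t1 t2 t3]
  closed i z hz u v x := by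
    have hc : DifferentiableAt ℂ (s i) z := (h.hol i).differentiableAt (isOpen_ball.mem_nhds hz)
    have df : DifferentiableAt ℝ (s i) z := hc.restrictScalars ℝ
    have hd : DifferentiableAt ℝ (fun y => sf2 (s i y)) z :=
      ((sm_sf2 (hold_sm h i)).contDiffAt (isOpen_ball.mem_nhds hz)).differentiableAt (by simp)
    have key : ∀ u v x : Cm 2, fderiv ℝ (fun y => sf2 (s i y)) z u v x =
        fderiv ℂ (s i) z u * (v 0 * x 1 - v 1 * x 0) := by
      intro u v x
      rw [fd_ev hd]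
      have e : HasFDerivAt (fun y => sf2 (s i y) v x)
          ((v 0 * x 1 - v 1 * x 0) • fderiv ℝ (s i) z) z := by
        simp only [sf2_apply]
        exact df.hasFDerivAt.mul_const _
      rw [e.fderiv, hc.fderiv_restrictScalars ℝ]
      simp only [smul_apply, smul_eq_mul, ContinuousLinearMap.coe_restrictScalars']
      ring
    have lin : ∀ u : Cm 2, fderiv ℂ (s i) z u =
        u 0 * fderiv ℂ (s i) z (Pi.single 0 1) + u 1 * fderiv ℂ (s i) z (Pi.single 1 1) := by
      intro u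
      have e : u = u 0 • (Pi.single 0 (1 : ℂ) : Cm 2) + u 1 • (Pi.single 1 (1 : ℂ) : Cm 2) := by
        ext m
        fin_cases m <;> simp
      conv_lhs => rw [e]
      rw [map_add, map_smul, map_smul, smul_eq_mul, smul_eq_mul]
    rw [key, key, key, lin u, lin v, lin x]
    ring

end

end Vale.Agent.P281.H624.TS
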