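import Vale.Agent.P281.H624.TS.Bd

/-!
# P281, project T-S, block C7 (helper624): the Hodge index theorem
-/

open Set Filter Metric MeasureTheory Vale.Agent.P272.K
open scoped Topology ContDiff ComplexConjugate ComplexOrder

noncomputable section

namespace Vale.Agent.P281.H624.TS

open Vale.Agent.P281.H64.TK Vale.Agent.P281.H64.TK.TS Vale.Agent.P272.K.C2

/-! ### `wd` -/

theorem wd_comm (a b : L2 2) : wd a b = wd b a := by
  simp only [wd]; ring

theorem wd_sub_left (a a' b : L2 2) : wd (a - a') b = wd a b - wd a' b := by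
  simp only [wd, sub_apply]; ring

theorem wd_kk (A B : Matrix (Fin 2) (Fin 2) ℂ) :
    wd (kf2 A) (kf2 B) = A 0 0 * B 1 1 + A 1 1 * B 0 0 - A 0 1 * B 1 0 - A 1 0 * B 0 1 := by
  simp only [wd, kf2_apply, rb_0, rb_1, rb_2, rb_3, Fin.sum_univ_two]
  simp only [Pi.single_eq_same, ne_eq, one_ne_zero, zero_ne_one, not_false_eq_true,
    Pi.single_eq_of_ne, map_zero, map_one, mul_one, mul_zero, zero_mul, sub_zero, zero_sub,
    Complex.conj_I, add_zero, zero_add]
  have := Complex.I_sq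
  linear_combination ((Complex.I ^ 2 - 1) * (A 0 0 * B 1 1 + A 1 1 * B 0 0 - A 0 1 * B 1 0 -
    A 1 0 * B 0 1)) * this

theorem wd_kw {w A : Matrix (Fin 2) (Fin 2) ℂ} (hw : w.det ≠ 0) :
    wd (kf2 A) (kf2 w) = w.det * (w⁻¹ * A).trace := by
  rw [wd_kk, Matrix.inv_def, Ring.inverse_eq_inv', Matrix.smul_mul, Matrix.trace_smul,
    smul_eq_mul, ← mul_assoc, mul_inv_cancel₀ hw, one_mul, Matrix.adjugate_fin_two,
    Matrix.trace_fin_two]
  simp only [Matrix.mul_apply, Fin.sum_univ_two, Matrix.of_apply, Matrix.cons_val', Matrix.cons_val_zero,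
    Matrix.cons_val_one, Matrix.cons_val_fin_one]
  ring

theorem wd_self {w : Matrix (Fin 2) (Fin 2) ℂ} : wd (kf2 w) (kf2 w) = 2 * w.det := by
  rw [wd_kk, Matrix.det_fin_two]
  ring

theorem ev_sm {α : Cm 2 → L2 2} {z : Cm 2} (h : ContDiffAt ℝ ∞ α z) (u v : Cm 2) :
    ContDiffAt ℝ ∞ (fun y => α y u v) z :=
  (ContDiffAt.clm_apply (𝕜 := ℝ) (E := Cm 2) (F := Cm 2) (G := L1 2) h
    contDiffAt_const).clm_apply contDiffAt_const

theorem wd_sm {α β : Cm 2 → L2 2} {z : Cm 2} (h : ContDiffAt ℝ ∞ α z)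
    (h' : ContDiffAt ℝ ∞ β z) : ContDiffAt ℝ ∞ (fun y => wd (α y) (β y)) z := by
  simp only [wd]
  have a := ev_sm h
  have b := ev_sm h'
  exact ((((((a _ _).mul (b _ _)).sub ((a _ _).mul (b _ _))).add ((a _ _).mul (b _ _))).add
    ((a _ _).mul (b _ _))).sub ((a _ _).mul (b _ _))).add ((a _ _).mul (b _ _))

theorem wd_im {a b : L2 2} (ha : ∀ u v, (a u v).im = 0) (hb : ∀ u v, (b u v).im = 0) :
    (wd a b).im = 0 := by
  simp only [wd, Complex.add_im, Complex.sub_im, Complex.mul_im, ha, hb]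
  ring

theorem kf2_im {w : Matrix (Fin 2) (Fin 2) ℂ} (hw : w.IsHermitian) (u v : Cm 2) :
    (kf2 w u v).im = 0 := by
  have e : conj (kf2 w u v) = kf2 w u v := by
    have h := fun j k => hw.apply j k
    simp only [kf2_apply, Fin.sum_univ_two, map_mul, map_add, map_sub, map_div₀, Complex.conj_I,
      Complex.conj_conj, map_ofNat]
    simp only [Complex.star_def] at h
    rw [h 0 0, h 0 1, h 1 0, h 1 1]
    ring
  exact Complex.conj_eq_iff_im.1 e

section
variable {E Γ : Type} [TopologicalSpace E] [Group Γ] [MulAction Γ E]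

/-! ### Integrals -/

theorem P_sub (S : Sheets 2 E Γ) (i : Fin S.N) : S.P i ⊆ closedBall 0 1 := fun z hz => by
  rw [mem_closedBall_zero_iff]; exact hz.1.le

theorem b13 : closedBall (0 : Cm 2) 1 ⊆ ball 0 3 := closedBall_subset_ball (by norm_num)

theorem int_on (S : Sheets 2 E Γ) (i : Fin S.N) {F : Type} [NormedAddCommGroup F] {f : Cm 2 → F}
    (hf : ContinuousOn f (ball 0 3)) : IntegrableOn f (S.P i) :=
  ((hf.mono b13).integrableOn_compact (isCompact_closedBall _ _)).mono_set (P_sub S i)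

theorem ae_P (S : Sheets 2 E Γ) (i : Fin S.N) {p : Cm 2 → Prop}
    (h : ∀ z ∈ ball (0 : Cm 2) 3, p z) : ∀ᵐ z ∂(volume.restrict (S.P i)), p z :=
  ae_restrict_of_ae_restrict_of_subset (P_sub S i)
    (ae_restrict_of_forall_mem measurableSet_closedBall fun z hz => h z (b13 hz))

theorem ae_P' (S : Sheets 2 E Γ) (i : Fin S.N) {p : Cm 2 → Prop}
    (h : ∀ z ∈ closedBall (0 : Cm 2) 1, p z) : ∀ᵐ z ∂(volume.restrict (S.P i)), p z :=
  ae_restrict_of_ae_restrict_of_subset (P_sub S i)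
    (ae_restrict_of_forall_mem measurableSet_closedBall fun z hz => h z hz)

/-- The integral of a real density. -/
def rI (S : Sheets 2 E Γ) (f : Fin S.N → Cm 2 → ℝ) : ℝ := ∑ i, ∫ z in S.P i, f i z

theorem rI_congr {S : Sheets 2 E Γ} {f g : Fin S.N → Cm 2 → ℝ}
    (h : ∀ i, ∀ z ∈ ball (0 : Cm 2) 3, f i z = g i z) : rI S f = rI S g :=
  Finset.sum_congr rfl fun i _ => integral_congr_ae (ae_P S i (h i))

theorem rI_add {S : Sheets 2 E Γ} {f g : Fin S.N → Cm 2 → ℝ}
    (hf : ∀ i, ContinuousOn (f i) (ball 0 3)) (hg : ∀ i, ContinuousOn (g i) (ball 0 3)) :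
    rI S (fun i z => f i z + g i z) = rI S f + rI S g := by
  simp only [rI]
  rw [← Finset.sum_add_distrib]
  exact Finset.sum_congr rfl fun i _ => integral_add (int_on S i (hf i)) (int_on S i (hg i))

theorem rI_mul {S : Sheets 2 E Γ} {f : Fin S.N → Cm 2 → ℝ} (c : ℝ) :
    rI S (fun i z => c * f i z) = c * rI S f := by
  simp only [rI, Finset.mul_sum]
  exact Finset.sum_congr rfl fun i _ => integral_const_mul _ _

theorem rI_mono {S : Sheets 2 E Γ} {f g : Fin S.N → Cm 2 → ℝ}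
    (hf : ∀ i, ContinuousOn (f i) (ball 0 3)) (hg : ∀ i, ContinuousOn (g i) (ball 0 3))
    (h : ∀ i, ∀ z ∈ closedBall (0 : Cm 2) 1, f i z ≤ g i z) : rI S f ≤ rI S g :=
  Finset.sum_le_sum fun i _ => integral_mono_ae (int_on S i (hf i)) (int_on S i (hg i))
    (ae_P' S i (h i))

theorem int_re {S : Sheets 2 E Γ} {D : Fin S.N → Cm 2 → ℂ}
    (hD : ∀ i, ContinuousOn (D i) (ball 0 3)) : (S.int D).re = rI S (fun i z => (D i z).re) := by
  simp only [Sheets.int, rI, Complex.re_sum]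
  refine Finset.sum_congr rfl fun i _ => ?_
  exact (Complex.reCLM.integral_comp_comm (int_on S i (hD i))).symm

theorem int_congr {S : Sheets 2 E Γ} {D D' : Fin S.N → Cm 2 → ℂ}
    (h : ∀ i, ∀ z ∈ ball (0 : Cm 2) 3, D i z = D' i z) : S.int D = S.int D' :=
  Finset.sum_congr rfl fun i _ => integral_congr_ae (ae_P S i (h i))

theorem int_add {S : Sheets 2 E Γ} {D D' : Fin S.N → Cm 2 → ℂ}
    (hD : ∀ i, ContinuousOn (D i) (ball 0 3)) (hD' : ∀ i, ContinuousOn (D' i) (ball 0 3)) :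
    S.int (fun i z => D i z + D' i z) = S.int D + S.int D' := by
  simp only [Sheets.int]
  rw [← Finset.sum_add_distrib]
  exact Finset.sum_congr rfl fun i _ => integral_add (int_on S i (hD i)) (int_on S i (hD' i))

theorem int_sub {S : Sheets 2 E Γ} {D D' : Fin S.N → Cm 2 → ℂ}
    (hD : ∀ i, ContinuousOn (D i) (ball 0 3)) (hD' : ∀ i, ContinuousOn (D' i) (ball 0 3)) :
    S.int (fun i z => D i z - D' i z) = S.int D - S.int D' := by
  simp only [Sheets.int]
  rw [← Finset.sum_sub_distrib]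
  exact Finset.sum_congr rfl fun i _ => integral_sub (int_on S i (hD i)) (int_on S i (hD' i))

theorem int_mul {S : Sheets 2 E Γ} {D : Fin S.N → Cm 2 → ℂ} (c : ℂ) :
    S.int (fun i z => c * D i z) = c * S.int D := by
  simp only [Sheets.int, Finset.mul_sum]
  exact Finset.sum_congr rfl fun i _ => integral_const_mul _ _

theorem cont_of {F : Type} [NormedAddCommGroup F] [NormedSpace ℝ F] {f : Cm 2 → F}
    (h : ∀ z ∈ ball (0 : Cm 2) 3, ContDiffAt ℝ ∞ f z) : ContinuousOn f (ball 0 3) :=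
  fun z hz => (h z hz).continuousAt.continuousWithinAt

theorem cont_wd {S : Sheets 2 E Γ} {α α' : Fin S.N → Cm 2 → L2 2} (h : Cl2 S α)
    (h' : Cl2 S α') (i : Fin S.N) : ContinuousOn (fun z => wd (α i z) (α' i z)) (ball 0 3) :=
  cont_of fun z hz => wd_sm (h.smooth i z hz trivial) (h'.smooth i z hz trivial)

/-- Subtracting an exact form does not change the square. -/
theorem wint_sq (hS : StokesStmt) [T2Space E] [Subsingleton Γ] [ContinuousConstSMul Γ E]
    {S : Sheets 2 E Γ} {α : Fin S.N → Cm 2 → L2 2} {β : Fin S.N → Cm 2 → L1 2} (h : Cl2 S α)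
    (hβ : F1On S univ β) :
    wint S (fun i z => α i z - d1 (β i) z) (fun i z => α i z - d1 (β i) z) = wint S α α := by
  have hd := cl2_d1 hβ
  have h1 := cl2_sub h hd
  have h2 := cl2_add h h1
  have e : wint S α α - wint S (fun i z => α i z - d1 (β i) z) (fun i z => α i z - d1 (β i) z) =
      wint S (fun i z => d1 (β i) z) (fun i z => α i z + (α i z - d1 (β i) z)) := by
    simp only [wint]
    rw [← int_sub (cont_wd h h) (cont_wd h1 h1)]
    refine int_congr fun i z _ => ?_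
    simp only [wd, sub_apply, add_apply]
    ring
  rw [hS E Γ S _ β h2 hβ] at e
  exact (sub_eq_zero.1 e).symm

end

end Vale.Agent.P281.H624.TS
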