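import Vale.Agent.P281.H624.TS.Cls

/-!
# P281, project T-S, block C7 (helper624): potentials, the `(0,2)`-part of a 2-form
-/

open Set Filter Metric MeasureTheory Vale.Agent.P272.K
open scoped Topology ContDiff ComplexConjugate ComplexOrder

noncomputable section

namespace Vale.Agent.P281.H624.TS

open Vale.Agent.P281.H64.TK Vale.Agent.P281.H64.TK.TS Vale.Agent.P272.K.C2

/-- The coefficient of `dz̄_1 ∧ dz̄_2` in a 2-form. -/
def c02 (α : L2 2) : ℂ :=
  (α (rb2 0) (rb2 2) + Complex.I * α (rb2 0) (rb2 3) + Complex.I * α (rb2 1) (rb2 2) -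
    α (rb2 1) (rb2 3)) / 4

theorem c02_sub (α β : L2 2) : c02 (α - β) = c02 α - c02 β := by
  simp only [c02, sub_apply]
  ring

theorem rb_0 : rb2 0 = Pi.single 0 1 := rfl
theorem rb_1 : rb2 1 = Pi.single 0 Complex.I := rfl
theorem rb_2 : rb2 2 = Pi.single 1 1 := rfl
theorem rb_3 : rb2 3 = Pi.single 1 Complex.I := rfl

theorem c02_of {α : L2 2} {s : ℂ} {H : Matrix (Fin 2) (Fin 2) ℂ}
    (h : ∀ u v, α u v = sf2 s u v + conj (sf2 s u v) + kf2 H u v) : c02 α = conj s := by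
  simp only [c02, h, sf2_apply, kf2_apply, rb_0, rb_1, rb_2, rb_3, Fin.sum_univ_two]
  simp only [Pi.single_eq_same, ne_eq, one_ne_zero, zero_ne_one, not_false_eq_true,
    Pi.single_eq_of_ne, map_zero, map_one, mul_one, mul_zero, zero_mul, sub_zero, zero_sub,
    Complex.conj_I, map_mul, add_zero, zero_add]
  have := Complex.I_sq
  linear_combination (s / 4 - 3 / 4 * conj s + Complex.I * (H 0 1 - H 1 0) / 8) * this

/-- The 1-form `Σ p_k dz_k + q_k dz̄_k`. -/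
def of1 (p q : Fin 2 → ℂ) : L1 2 :=
  LinearMap.toContinuousLinearMap (
    { toFun := fun v : Cm 2 => ∑ k, (p k * v k + q k * conj (v k))
      map_add' := by
        intro u v
        simp only [Fin.sum_univ_two, Pi.add_apply, map_add]
        ring
      map_smul' := by
        intro c v
        simp only [Fin.sum_univ_two, Pi.smul_apply, Complex.real_smul, map_mul,
          Complex.conj_ofReal, RingHom.id_apply]
        ring } : Cm 2 →ₗ[ℝ] ℂ)

theorem of1_apply (p q : Fin 2 → ℂ) (v : Cm 2) :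
    of1 p q v = ∑ k, (p k * v k + q k * conj (v k)) := rfl

theorem sm_of1 {p q : Cm 2 → Fin 2 → ℂ} {V : Set (Cm 2)}
    (hp : ∀ k, ContDiffOn ℝ ∞ (fun y => p y k) V) (hq : ∀ k, ContDiffOn ℝ ∞ (fun y => q y k) V) :
    ContDiffOn ℝ ∞ (fun y => of1 (p y) (q y)) V := by
  refine (contDiffOn_clm_apply (𝕜 := ℝ) (D := Cm 2) (E := Cm 2) (F := ℂ)).2 fun v => ?_
  simp only [of1_apply]
  exact ContDiffOn.sum fun k _ => ((hp k).mul contDiffOn_const).add ((hq k).mul contDiffOn_const)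

/-- Evaluation at `v`, as a continuous linear map. -/
def ev1 (v : Cm 2) : L1 2 →L[ℝ] ℂ := ContinuousLinearMap.apply ℝ ℂ v

theorem fd_ev1 {β : Cm 2 → L1 2} {z : Cm 2} (h : DifferentiableAt ℝ β z) (u v : Cm 2) :
    fderiv ℝ β z u v = fderiv ℝ (fun y => β y v) z u := by
  have h0 : HasFDerivAt (fun α : L1 2 => ev1 v α) (ev1 v) (β z) :=
    ContinuousLinearMap.hasFDerivAt (𝕜 := ℝ) (E := L1 2) (F := ℂ) (ev1 v)
  have h2 : HasFDerivAt (fun y => ev1 v (β y)) ((ev1 v).comp (fderiv ℝ β z)) z :=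
    HasFDerivAt.comp (𝕜 := ℝ) (E := Cm 2) (F := L1 2) (G := ℂ) (g := fun α => ev1 v α)
      (f := fun z => β z) z h0 h.hasFDerivAt
  have h3 : fderiv ℝ (fun y => β y v) z = (ev1 v).comp (fderiv ℝ β z) := h2.fderiv
  rw [h3]
  rfl

theorem fd_of1 {p q : Cm 2 → Fin 2 → ℂ} {V : Set (Cm 2)} {z : Cm 2} (hV : IsOpen V) (hz : z ∈ V)
    (hp : ∀ k, ContDiffOn ℝ ∞ (fun y => p y k) V) (hq : ∀ k, ContDiffOn ℝ ∞ (fun y => q y k) V)
    (u v : Cm 2) : fderiv ℝ (fun y => of1 (p y) (q y)) z u v =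
      ∑ k, (fderiv ℝ (fun y => p y k) z u * v k + fderiv ℝ (fun y => q y k) z u * conj (v k)) := by
  have hd : DifferentiableAt ℝ (fun y => of1 (p y) (q y)) z :=
    ((sm_of1 hp hq).contDiffAt (hV.mem_nhds hz)).differentiableAt (by simp)
  rw [fd_ev1 hd]
  have e : HasFDerivAt (fun y => of1 (p y) (q y) v) (∑ k,
      (v k • fderiv ℝ (fun y => p y k) z + conj (v k) • fderiv ℝ (fun y => q y k) z)) z := by
    simp only [of1_apply]
    refine HasFDerivAt.fun_sum fun k _ => ?_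
    have a : DifferentiableAt ℝ (fun y => p y k) z :=
      ((hp k).contDiffAt (hV.mem_nhds hz)).differentiableAt (by simp)
    have b : DifferentiableAt ℝ (fun y => q y k) z :=
      ((hq k).contDiffAt (hV.mem_nhds hz)).differentiableAt (by simp)
    exact (a.hasFDerivAt.mul_const _).add (b.hasFDerivAt.mul_const _)
  rw [e.fderiv]
  simp only [sum_apply, add_apply, smul_apply, smul_eq_mul]
  refine Finset.sum_congr rfl fun k _ => ?_
  ring

/-- The `(0,2)`-part of `d (Σ p_k dz_k + q_k dz̄_k)`. -/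
theorem c02_d1 {p q : Cm 2 → Fin 2 → ℂ} {V : Set (Cm 2)} {z : Cm 2} (hV : IsOpen V) (hz : z ∈ V)
    (hp : ∀ k, ContDiffOn ℝ ∞ (fun y => p y k) V) (hq : ∀ k, ContDiffOn ℝ ∞ (fun y => q y k) V) :
    c02 (d1 (fun y => of1 (p y) (q y)) z) =
      dzb 0 (fun y => q y 1) z - dzb 1 (fun y => q y 0) z := by
  simp only [c02, d1_apply, fd_of1 hV hz hp hq, rb_0, rb_1, rb_2, rb_3, Fin.sum_univ_two, dzb]
  simp only [Pi.single_eq_same, ne_eq, one_ne_zero, zero_ne_one, not_false_eq_true,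
    Pi.single_eq_of_ne, map_zero, map_one, mul_one, mul_zero, add_zero, zero_add,
    Complex.conj_I]
  have := Complex.I_sq
  linear_combination ((fderiv ℝ (fun y => p y 1) z (Pi.single 0 1) -
    fderiv ℝ (fun y => q y 1) z (Pi.single 0 1) - fderiv ℝ (fun y => p y 0) z (Pi.single 1 1) +
    fderiv ℝ (fun y => q y 0) z (Pi.single 1 1)) / 4) * this

/-- `d (b + conj b)` is real. -/
theorem im_d1 {b : Cm 2 → Fin 2 → ℂ} {V : Set (Cm 2)} {z : Cm 2} (hV : IsOpen V) (hz : z ∈ V)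
    (hb : ∀ k, ContDiffOn ℝ ∞ (fun y => b y k) V) (u v : Cm 2) :
    (d1 (fun y => of1 (fun k => conj (b y k)) (b y)) z u v).im = 0 := by
  have hc : ∀ k, ContDiffOn ℝ ∞ (fun y => conj (b y k)) V := fun k y hy =>
    (contDiffAt_conj ((hb k).contDiffAt (hV.mem_nhds hy))).contDiffWithinAt
  have fc : ∀ k u, fderiv ℝ (fun y => conj (b y k)) z u = conj (fderiv ℝ (fun y => b y k) z u) := by
    intro k u
    have a : DifferentiableAt ℝ (fun y => b y k) z :=
      ((hb k).contDiffAt (hV.mem_nhds hz)).differentiableAt (by simp)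
    have := ((Complex.conjCLE : ℂ →L[ℝ] ℂ).hasFDerivAt.comp z a.hasFDerivAt).fderiv
    exact congrArg (fun L : Cm 2 →L[ℝ] ℂ => L u) this
  have key : ∀ u v : Cm 2, (fderiv ℝ (fun y => of1 (fun k => conj (b y k)) (b y)) z u v).im = 0 := by
    intro u v
    rw [fd_of1 (p := fun y k => conj (b y k)) (q := b) hV hz hc hb]
    simp only [fc, Fin.sum_univ_two, Complex.add_im, Complex.mul_im, Complex.conj_re,
      Complex.conj_im]
    ring
  rw [d1_apply, Complex.sub_im, key, key, sub_zero]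

/-- `d ((i/2) ∂̄φ) = (i/2) ∂∂̄φ`. -/
theorem d1_phi {φ : Cm 2 → ℝ} {V : Set (Cm 2)} {z : Cm 2} (hV : IsOpen V) (hz : z ∈ V)
    (hφ : ∀ y ∈ V, ContDiffAt ℝ ∞ (fun y => (φ y : ℂ)) y) :
    d1 (fun y => of1 0 (fun k => Complex.I / 2 * dzb k (fun y => (φ y : ℂ)) y)) z =
      kf2 (cHess φ z) := by
  have h1 : ∀ k, ∀ y ∈ V, ContDiffAt ℝ ∞ (dzb k fun y => (φ y : ℂ)) y := fun k y hy =>
    contDiffAt_dzb k (hφ y hy) (by simp)
  have hq : ∀ k, ContDiffOn ℝ ∞ (fun y => Complex.I / 2 * dzb k (fun y => (φ y : ℂ)) y) V :=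
    fun k y hy => (contDiffAt_const.mul (h1 k y hy)).contDiffWithinAt
  have hp : ∀ k : Fin 2, ContDiffOn ℝ ∞ (fun _ : Cm 2 => (0 : Fin 2 → ℂ) k) V := fun k =>
    contDiffOn_const
  have fq : ∀ k u, fderiv ℝ (fun y => Complex.I / 2 * dzb k (fun y => (φ y : ℂ)) y) z u =
      Complex.I / 2 * ∑ j, (dz j (dzb k fun y => (φ y : ℂ)) z * u j +
        dzb j (dzb k fun y => (φ y : ℂ)) z * conj (u j)) := by
    intro k u
    have a : DifferentiableAt ℝ (dzb k fun y => (φ y : ℂ)) z :=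
      (h1 k z hz).differentiableAt (by simp)
    rw [← fd_wirt, (a.hasFDerivAt.const_mul (Complex.I / 2)).fderiv]
    rfl
  have cm : dzb 1 (dzb 0 fun y => (φ y : ℂ)) z = dzb 0 (dzb 1 fun y => (φ y : ℂ)) z :=
    dzb_dzb_comm 1 0 ((hφ z hz).of_le (by exact WithTop.coe_le_coe.2 le_top))
  ext u v
  rw [d1_apply, fd_of1 (p := fun _ => 0) hV hz hp hq, fd_of1 (p := fun _ => 0) hV hz hp hq]
  simp only [fq, kf2_apply, cHess_apply, Fin.sum_univ_two, Pi.zero_apply, fderiv_fun_const, cm,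
    zero_apply, zero_mul, zero_add]
  ring

section
variable {E Γ : Type} [TopologicalSpace E] [Group Γ] [MulAction Γ E]

/-- The real 1-form `b + conj b` of a `(0,1)`-form `b`. -/
theorem f1_b [Subsingleton Γ] {S : Sheets 2 E Γ} {b : Fin S.N → Cm 2 → Fin 2 → ℂ}
    (hb : ∀ i, ContDiffOn ℝ ∞ (b i) (ball 0 3))
    (hc : ∀ i j, ∀ z ∈ ball (0 : Cm 2) 3, ∀ z' ∈ ball (0 : Cm 2) 3, ∀ θ : Cm 2 → Cm 2,
      AnalyticAt ℂ θ z → θ z = z' → (∀ᶠ u in 𝓝 z, S.σ i u = S.σ j (θ u)) →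
        ∀ k, b i z k = ∑ l, b j z' l * conj (jac θ z l k)) :
    F1On S univ (fun i y => of1 (fun k => conj (b i y k)) (b i y)) where
  smooth i z hz _ := by
    have h1 : ∀ k, ContDiffOn ℝ ∞ (fun y => b i y k) (ball 0 3) := fun k =>
      contDiffOn_pi.1 (hb i) k
    have h2 : ∀ k, ContDiffOn ℝ ∞ (fun y => conj (b i y k)) (ball 0 3) := fun k y hy =>
      (contDiffAt_conj ((h1 k).contDiffAt (isOpen_ball.mem_nhds hy))).contDiffWithinAt
    exact (sm_of1 (p := fun y k => conj (b i y k)) h2 h1).contDiffAt (isOpen_ball.mem_nhds hz)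
  change i j z hz z' hz' _ ψ hψ v := by
    obtain ⟨θ, t1, t2, t3, t4⟩ := tr_hol S hz hz' hψ
    rw [fd_mulVec t1 t4]
    simp only [of1_apply, hc i j z hz z' hz' θ t1 t2 t3, Fin.sum_univ_two, Matrix.mulVec,
      dotProduct, map_add, map_mul, Complex.conj_conj]
    ring

/-- The 1-form `(i/2) ∂̄φ`. -/
theorem f1_phi [Subsingleton Γ] {S : Sheets 2 E Γ} {φ : E → ℝ}
    (hφ : SmOn S univ (fun e => (φ e : ℂ))) :
    F1On S univ (fun i y => of1 0 (fun k => Complex.I / 2 *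
      dzb k (fun y => (φ (S.σ i y) : ℂ)) y)) where
  smooth i z hz _ := by
    have h1 : ∀ k, ContDiffOn ℝ ∞ (fun y => Complex.I / 2 *
        dzb k (fun y => (φ (S.σ i y) : ℂ)) y) (ball 0 3) := fun k y hy =>
      (contDiffAt_const.mul (contDiffAt_dzb k (hφ i y hy trivial)
        (by simp))).contDiffWithinAt
    have h2 : ∀ k : Fin 2, ContDiffOn ℝ ∞ (fun _ : Cm 2 => (0 : Fin 2 → ℂ) k) (ball 0 3) :=
      fun k => contDiffOn_const
    exact (sm_of1 (p := fun _ => 0) h2 h1).contDiffAt (isOpen_ball.mem_nhds hz)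
  change i j z hz z' hz' _ ψ hψ v := by
    obtain ⟨θ, t1, t2, t3, t4⟩ := tr_hol S hz hz' hψ
    have e : ∀ (i : Fin S.N) (z v : Cm 2), of1 0 (fun k => Complex.I / 2 *
        dzb k (fun y => (φ (S.σ i y) : ℂ)) z) v = Complex.I / 2 *
        ((fderiv ℝ (fun y => (φ (S.σ i y) : ℂ)) z v +
          Complex.I * fderiv ℝ (fun y => (φ (S.σ i y) : ℂ)) z (Complex.I • v)) / 2) := by
      intro i z v
      rw [← fd_dbar]
      simp only [of1_apply, Pi.zero_apply, Fin.sum_univ_two]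
      ring
    have hj : DifferentiableAt ℝ (fun y => (φ (S.σ j y) : ℂ)) (θ z) := by
      rw [t2]; exact (hφ j z' hz' trivial).differentiableAt (by simp)
    have hθ : DifferentiableAt ℝ θ z := (t1.differentiableAt).restrictScalars ℝ
    have e2 : (fun y => (φ (S.σ i y) : ℂ)) =ᶠ[𝓝 z] fun y => (φ (S.σ j (θ y)) : ℂ) := by
      filter_upwards [t3] with y hy
      rw [hy]
    have e3 : ∀ v, fderiv ℝ (fun y => (φ (S.σ i y) : ℂ)) z v =
        fderiv ℝ (fun y => (φ (S.σ j y) : ℂ)) z' (fderiv ℝ ψ z v) := by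
      intro v
      rw [e2.fderiv_eq]
      have := (hj.hasFDerivAt.comp z hθ.hasFDerivAt).fderiv
      rw [t4.fderiv_eq]
      rw [t2] at this
      exact congrArg (fun L : Cm 2 →L[ℝ] ℂ => L v) this
    have e4 : fderiv ℝ ψ z (Complex.I • v) = Complex.I • fderiv ℝ ψ z v := by
      rw [t4.fderiv_eq, fd_real t1, fd_real t1, map_smul]
    rw [e, e, e3, e3, e4]

theorem c02_change [Subsingleton Γ] {S : Sheets 2 E Γ} {α : Fin S.N → Cm 2 → L2 2}
    (hα : Cl2 S α) (hA : AlgStmt) (hr : Real2 S α) {i j : Fin S.N} {z z' : Cm 2}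
    (hz : z ∈ ball (0 : Cm 2) 3) (hz' : z' ∈ ball (0 : Cm 2) 3) {θ : Cm 2 → Cm 2}
    (t1 : AnalyticAt ℂ θ z) (t2 : θ z = z') (t3 : ∀ᶠ u in 𝓝 z, S.σ i u = S.σ j (θ u)) :
    c02 (α i z) = c02 (α j z') * conj (jac θ z).det := by
  obtain ⟨s, H, -, h, -⟩ := hA (α j z') (hα.alt j z' hz' trivial) (hr j z' hz')
  have h' : ∀ u v, α i z u v = sf2 (s * (jac θ z).det) u v +
      conj (sf2 (s * (jac θ z).det) u v) +
        kf2 ((jac θ z).transpose * H * (jac θ z).map conj) u v := by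
    intro u v
    rw [hα.change i j z hz z' hz' trivial θ (hol_tr S t1 t2 t3), fd_mulVec t1 (by rfl),
      fd_mulVec t1 (by rfl), h, sf2_pull, kf2_pull]
  rw [c02_of h', c02_of h, map_mul]

theorem c02_sm {α : Cm 2 → L2 2} {z : Cm 2} (h : ContDiffAt ℝ ∞ α z) :
    ContDiffAt ℝ ∞ (fun y => c02 (α y)) z := by
  have e : ∀ u v, ContDiffAt ℝ ∞ (fun y => α y u v) z := fun u v =>
    (ContDiffAt.clm_apply (𝕜 := ℝ) (E := Cm 2) (F := Cm 2) (G := L1 2) h
      contDiffAt_const).clm_apply contDiffAt_const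
  simp only [c02]
  exact ((((e _ _).add (contDiffAt_const.mul (e _ _))).add
    (contDiffAt_const.mul (e _ _))).sub (e _ _)).div_const _

end

end Vale.Agent.P281.H624.TS
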